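import Vale.Agent.P042.R2.H463CF.Spec

set_option autoImplicit false

/-!
P042.ContextFree, row U: union bounds.
-/

namespace Vale.Agent.P042.CF

open Finset

/-- Union bound. -/
theorem card_le_union {ι β : Type} [DecidableEq β] (I : Finset ι) (S : ι → Finset β)
    (T : Finset β) (B : ℝ) (hT : ∀ v ∈ T, ∃ i ∈ I, v ∈ S i)
    (hS : ∀ i ∈ I, ((S i).card : ℝ) ≤ B) : (T.card : ℝ) ≤ (I.card : ℝ) * B := by
  have h1 : T ⊆ I.biUnion S := by
    intro v hv
    obtain ⟨i, hi, h⟩ := hT v hv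
    exact mem_biUnion.2 ⟨i, hi, h⟩
  have h2 : (T.card : ℝ) ≤ ((I.biUnion S).card : ℝ) := by exact_mod_cast card_le_card h1
  have h3 : ((I.biUnion S).card : ℝ) ≤ ∑ i ∈ I, ((S i).card : ℝ) := by
    exact_mod_cast card_biUnion_le
  have h4 : ∑ i ∈ I, ((S i).card : ℝ) ≤ ∑ _i ∈ I, B := sum_le_sum hS
  rw [sum_const, nsmul_eq_mul] at h4
  linarith

theorem mem_TT (b : ℕ) (hb : 1 ≤ b) (hl : DerLt) {σ : Type} (G : Gr σ) (X : σ) (p l v : ℕ) :
    v ∈ TT b G X p l ↔ Der b G X p l v := by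
  classical
  unfold TT
  rw [mem_filter, mem_range]
  exact ⟨fun h => h.2, fun h => ⟨hl b σ G X p l v hb h, h⟩⟩

theorem mem_CC (b : ℕ) (hb : 1 ≤ b) (hc : CtxLt) {σ : Type} (G : Gr σ) (l : ℕ) (Y X : σ)
    (p i j u w : ℕ) : (u, w) ∈ CC b G l Y X p i j ↔ Ctx b G l Y X p i j u w := by
  classical
  unfold CC
  rw [mem_filter, mem_product, mem_range, mem_range]
  refine ⟨fun h => h.2, fun h => ⟨?_, h⟩⟩
  exact hc b σ G l Y X p i j u w hb h

theorem card_image_prod_le {α β γ : Type} [DecidableEq γ] (f : α × β → γ) (P : Finset α)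
    (Q : Finset β) (B : ℝ) (hB : 0 ≤ B)
    (h : P.Nonempty → Q.Nonempty → (P.card : ℝ) * (Q.card : ℝ) ≤ B) :
    (((P ×ˢ Q).image f).card : ℝ) ≤ B := by
  have h1 : (((P ×ˢ Q).image f).card : ℝ) ≤ (P.card : ℝ) * (Q.card : ℝ) := by
    have := card_image_le (s := P ×ˢ Q) (f := f)
    rw [card_product] at this
    exact_mod_cast this
  rcases P.eq_empty_or_nonempty with hP | hP
  · subst hP
    simp only [card_empty, Nat.cast_zero, zero_mul] at h1
    linarith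
  rcases Q.eq_empty_or_nonempty with hQ | hQ
  · subst hQ
    simp only [card_empty, Nat.cast_zero, mul_zero] at h1
    linarith
  exact h1.trans (h hP hQ)

theorem card_image_prod3_le {α β δ γ : Type} [DecidableEq γ] (f : α × (β × δ) → γ) (P : Finset α)
    (Q : Finset β) (R : Finset δ) (B : ℝ) (hB : 0 ≤ B)
    (h : P.Nonempty → Q.Nonempty → R.Nonempty →
      (P.card : ℝ) * (Q.card : ℝ) * (R.card : ℝ) ≤ B) :
    (((P ×ˢ (Q ×ˢ R)).image f).card : ℝ) ≤ B := by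
  refine card_image_prod_le f P (Q ×ˢ R) B hB fun hP hQR => ?_
  obtain ⟨hQ, hR⟩ := nonempty_product.1 hQR
  have := h hP hQ hR
  rw [card_product]
  push_cast
  linarith

theorem cardT : DerLt → CtxLt → SplitT → CardT := by
  intro hl hc hs b σ _ G X p l t B hb ht htl hB H
  classical
  let S : σ × ℕ × ℕ → Finset ℕ := fun q =>
    if q.2.1 + (l - q.2.1 - q.2.2) + q.2.2 = l ∧ t ≤ 2 * (l - q.2.1 - q.2.2) ∧
        l - q.2.1 - q.2.2 ≤ t then
      ((CC b G (l - q.2.1 - q.2.2) q.1 X p q.2.1 q.2.2) ×ˢ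
        (TT b G q.1 (p + q.2.1) (l - q.2.1 - q.2.2))).image fun x =>
          x.1.1 + b ^ q.2.1 * x.2 + b ^ (q.2.1 + (l - q.2.1 - q.2.2)) * x.1.2
    else ∅
  have h := card_le_union (univ ×ˢ (range (l + 1) ×ˢ range (l + 1))) S (TT b G X p l) B ?_ ?_
  · rw [card_product, card_product, card_range, card_univ] at h
    push_cast at h
    calc _ ≤ _ := h
      _ = _ := by ring
  · intro v hv
    rw [mem_TT b hb hl] at hv
    obtain ⟨Y, i, l', j, u, v', w, h1, h2, h3, h4, h5, h6⟩ := hs b σ G X p l v t hv ht htl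
    refine ⟨(Y, i, j), ?_, ?_⟩
    · rw [mem_product, mem_product, mem_range, mem_range]
      exact ⟨mem_univ _, by simp only; omega, by simp only; omega⟩
    · have e : l - i - j = l' := by omega
      simp only [S, e]
      rw [if_pos ⟨h1, h2, h3⟩, mem_image]
      refine ⟨((u, w), v'), ?_, ?_⟩
      · rw [mem_product]
        exact ⟨(mem_CC b hb hc G l' Y X p i j u w).2 h4, (mem_TT b hb hl G Y (p + i) l' v').2 h5⟩
      · exact h6.symm
  · rintro ⟨Y, i, j⟩ -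
    simp only [S]
    split_ifs with hq
    · exact card_image_prod_le _ _ _ B hB (H Y i (l - i - j) j hq.1 hq.2.1 hq.2.2)
    · simpa using hB

theorem cardC : DerLt → CtxLt → SplitC → CardC := by
  intro hl hc hs b σ _ G l Y X p i j t B hb ht htl hB H1 H2
  classical
  let S1 : (σ × σ × σ) × (ℕ × ℕ × ℕ) → Finset (ℕ × ℕ) := fun q =>
    if q.2.1 + (i - q.2.1) = i ∧ q.2.2.1 + (j - q.2.2.1 - q.2.2.2) + q.2.2.2 = j ∧
        (i - q.2.1) + q.2.2.1 < t ∧
        t ≤ (i - q.2.1) + (q.2.2.1 + (j - q.2.2.1 - q.2.2.2)) ∧ G.r2 q.1.1 q.1.2.1 q.1.2.2 then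
      ((CC b G ((i - q.2.1) + l + (q.2.2.1 + (j - q.2.2.1 - q.2.2.2))) q.1.1 X p q.2.1
          q.2.2.2) ×ˢ
        ((CC b G l Y q.1.2.1 (p + q.2.1) (i - q.2.1) q.2.2.1) ×ˢ
          (TT b G q.1.2.2 (p + q.2.1 + ((i - q.2.1) + l + q.2.2.1))
            (j - q.2.2.1 - q.2.2.2)))).image fun x =>
        (x.1.1 + b ^ q.2.1 * x.2.1.1, x.2.1.2 + b ^ q.2.2.1 * x.2.2 +
          b ^ (q.2.2.1 + (j - q.2.2.1 - q.2.2.2)) * x.1.2)
    else ∅
  let S2 : (σ × σ × σ) × (ℕ × ℕ × ℕ) → Finset (ℕ × ℕ) := fun q =>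
    if q.2.1 + q.2.2.1 + (i - q.2.1 - q.2.2.1) = i ∧ (j - q.2.2.2) + q.2.2.2 = j ∧
        (i - q.2.1 - q.2.2.1) + (j - q.2.2.2) < t ∧
        t ≤ q.2.2.1 + (i - q.2.1 - q.2.2.1) + (j - q.2.2.2) ∧ G.r2 q.1.1 q.1.2.1 q.1.2.2 then
      ((CC b G (q.2.2.1 + (i - q.2.1 - q.2.2.1) + l + (j - q.2.2.2)) q.1.1 X p q.2.1
          q.2.2.2) ×ˢ
        ((TT b G q.1.2.1 (p + q.2.1) q.2.2.1) ×ˢ
          (CC b G l Y q.1.2.2 (p + q.2.1 + q.2.2.1) (i - q.2.1 - q.2.2.1)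
            (j - q.2.2.2)))).image fun x =>
        (x.1.1 + b ^ q.2.1 * x.2.1 + b ^ (q.2.1 + q.2.2.1) * x.2.2.1,
          x.2.2.2 + b ^ (j - q.2.2.2) * x.1.2)
    else ∅
  let R : Finset ((σ × σ × σ) × (ℕ × ℕ × ℕ)) :=
    univ ×ˢ (range (i + j + 1) ×ˢ (range (i + j + 1) ×ˢ range (i + j + 1)))
  have hR : (R.card : ℝ) = (Fintype.card σ : ℝ) ^ 3 * ((i : ℝ) + j + 1) ^ 3 := by
    simp only [R]
    rw [card_product, card_product, card_product, card_range, card_univ, Fintype.card_prod,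
      Fintype.card_prod]
    push_cast
    ring
  have h := card_le_union (univ ×ˢ R) (fun q : Bool × _ => if q.1 then S1 q.2 else S2 q.2)
    (CC b G l Y X p i j) B ?_ ?_
  · rw [card_product, card_univ, Fintype.card_bool] at h
    push_cast at h
    rw [hR] at h
    calc _ ≤ _ := h
      _ = _ := by ring
  · rintro ⟨u, w⟩ hv
    rw [mem_CC b hb hc] at hv
    rcases hs b σ G l Y X p i j u w t hv ht htl with
      ⟨Z, Z₁, Z₂, i₁, j₁, i₂, j₂, j₃, u₁, w₁, u₂, w₂, w₃, h1, h2, h3, h4, h5, h6, h7, h8, h9,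
        h10⟩ |
      ⟨Z, Z₁, Z₂, i₁, j₁, i₂, j₂, i₃, u₁, w₁, u₂, w₂, u₃, h1, h2, h3, h4, h5, h6, h7, h8, h9,
        h10⟩
    · refine ⟨(true, ((Z, Z₁, Z₂), (i₁, j₂, j₁))), ?_, ?_⟩
      · simp only [R, mem_product, mem_univ, mem_range, true_and]
        omega
      · have e1 : i - i₁ = i₂ := by omega
        have e2 : j - j₂ - j₁ = j₃ := by omega
        simp only [S1, if_true, e1, e2]
        rw [if_pos ⟨h1, h2, h3, h4, h5⟩, mem_image]
        refine ⟨((u₁, w₁), ((u₂, w₂), w₃)), ?_, ?_⟩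
        · rw [mem_product, mem_product]
          exact ⟨(mem_CC b hb hc _ _ _ _ _ _ _ _ _).2 h6,
            (mem_CC b hb hc _ _ _ _ _ _ _ _ _).2 h7, (mem_TT b hb hl _ _ _ _ _).2 h8⟩
        · simp only
          rw [h9, h10]
    · refine ⟨(false, ((Z, Z₁, Z₂), (i₁, i₃, j₁))), ?_, ?_⟩
      · simp only [R, mem_product, mem_univ, mem_range, true_and]
        omega
      · have e1 : i - i₁ - i₃ = i₂ := by omega
        have e2 : j - j₁ = j₂ := by omega
        simp only [S2, if_false, e1, e2, Bool.false_eq_true]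
        rw [if_pos ⟨h1, h2, h3, h4, h5⟩, mem_image]
        refine ⟨((u₁, w₁), (u₃, (u₂, w₂))), ?_, ?_⟩
        · rw [mem_product, mem_product]
          exact ⟨(mem_CC b hb hc _ _ _ _ _ _ _ _ _).2 h6,
            (mem_TT b hb hl _ _ _ _ _).2 h7, (mem_CC b hb hc _ _ _ _ _ _ _ _ _).2 h8⟩
        · simp only
          rw [h9, h10]
  · rintro ⟨c, ⟨Z, Z₁, Z₂⟩, i₁, x, y⟩ -
    cases c
    · simp only [S2, if_false, Bool.false_eq_true]
      split_ifs with hq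
      · exact card_image_prod3_le _ _ _ _ B hB
          (H2 Z Z₁ Z₂ i₁ y (i - i₁ - x) (j - y) x hq.1 hq.2.1 hq.2.2.1 hq.2.2.2.1 hq.2.2.2.2)
      · simpa using hB
    · simp only [S1, if_true]
      split_ifs with hq
      · exact card_image_prod3_le _ _ _ _ B hB
          (H1 Z Z₁ Z₂ i₁ y (i - i₁) x (j - x - y) hq.1 hq.2.1 hq.2.2.1 hq.2.2.2.1 hq.2.2.2.2)
      · simpa using hB

end Vale.Agent.P042.CF
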