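import Vale.Agent.P042.R2.H463CF.Spec

set_option autoImplicit false

/-! Fibres of blocks of digits. -/

namespace Vale.Agent.P042.CF

open Polynomial Finset Vale.Agent.P042.H463

theorem fiber : Fiber := by
  classical
  intro a k b hk hb A hA q l c D hD hDA
  -- the offset to the next multiple of `k`
  obtain ⟨o, ho, e, he⟩ : ∃ o, o < k ∧ ∃ e, q + o = k * e := by
    rcases Nat.eq_zero_or_pos (q % k) with h | h
    · exact ⟨0, by omega, q / k, by have := Nat.div_add_mod q k; omega⟩
    · refine ⟨k - q % k, by omega, q / k + 1, ?_⟩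
      have h1 := Nat.div_add_mod q k
      have h2 := Nat.mod_lt q (by omega : 0 < k)
      rw [Nat.mul_add, Nat.mul_one]
      omega
  refine ⟨o, ho, ?_⟩
  have hbo : 0 < b ^ o := Nat.pow_pos (by omega)
  have h1 : D.card = ∑ r ∈ range (b ^ (min o l)), (D.filter fun d => d % b ^ o = r).card := by
    refine Finset.card_eq_sum_card_fiberwise ?_
    intro d hd
    have hd' := hD d (Finset.mem_coe.1 hd)
    refine Finset.mem_coe.2 (mem_range.2 ?_)
    rcases Nat.le_total o l with h | h
    · rw [Nat.min_eq_left h]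
      exact Nat.mod_lt _ hbo
    · rw [Nat.min_eq_right h]
      exact lt_of_le_of_lt (Nat.mod_le _ _) hd'
  have h2 : ∀ r ∈ range (b ^ (min o l)), (D.filter fun d => d % b ^ o = r).card ≤
      rMax (C (a : ℤ) * X ^ k : ℤ[X]) (b ^ (l - o)) := by
    intro r _
    have e1 : (D.filter fun d => d % b ^ o = r).card =
        ((D.filter fun d => d % b ^ o = r).image fun d => ((d / b ^ o : ℕ) : ℤ)).card := by
      refine (Finset.card_image_of_injOn ?_).symm
      intro x hx y hy hxy
      have hx' := (mem_filter.1 (Finset.mem_coe.1 hx)).2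
      have hy' := (mem_filter.1 (Finset.mem_coe.1 hy)).2
      have h3' : ((x / b ^ o : ℕ) : ℤ) = ((y / b ^ o : ℕ) : ℤ) := hxy
      have h3 : x / b ^ o = y / b ^ o := Int.natCast_inj.1 h3'
      rw [← Nat.div_add_mod x (b ^ o), ← Nat.div_add_mod y (b ^ o), h3, hx', hy']
    rw [e1]
    refine card_le_rMax' ?_ _ ?_
    · refine DiffFree.of_scale hA (u := b ^ e) (Nat.one_le_pow _ _ (by omega))
        (c + ((b ^ q * r : ℕ) : ℤ)) ?_
      intro d hd
      obtain ⟨x, hx, rfl⟩ := mem_image.1 hd
      obtain ⟨hx1, hx2⟩ := mem_filter.1 hx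
      have h3 := hDA x hx1
      have h4 : b ^ q * x = b ^ q * r + (b ^ e) ^ k * (x / b ^ o) := by
        have h5 : (b ^ e) ^ k = b ^ q * b ^ o := by
          rw [← pow_mul, ← pow_add, he, Nat.mul_comm]
        rw [h5]
        conv_lhs => rw [← Nat.div_add_mod x (b ^ o), hx2]
        ring
      rw [h4] at h3
      convert h3 using 1
      push_cast
      ring
    · intro d hd
      obtain ⟨x, hx, rfl⟩ := mem_image.1 hd
      obtain ⟨hx1, hx2⟩ := mem_filter.1 hx
      refine ⟨by positivity, ?_⟩
      have h3 := hD x hx1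
      have h4 : x / b ^ o < b ^ (l - o) := by
        rw [Nat.div_lt_iff_lt_mul hbo, ← pow_add]
        exact lt_of_lt_of_le h3 (Nat.pow_le_pow_right hb (by omega))
      exact_mod_cast h4
  rw [h1]
  refine (Finset.sum_le_sum h2).trans (le_of_eq ?_)
  rw [sum_const, card_range, smul_eq_mul]

end Vale.Agent.P042.CF
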