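import Vale.Agent.P042.R2.H463CF.Spec
import Vale.Agent.P042.R2.H463.Num

set_option autoImplicit false

/-! The final numerics for one length. -/

namespace Vale.Agent.P042.CF

open Vale.Agent.P042.H463

/-- The goal in exponential form. -/
lemma goal_exp {b θ : ℝ} (hb : 0 < b) (L : ℕ) :
    (b ^ L) ^ (1 - θ) = b ^ L * Real.exp (-(θ * (L * Real.log b))) := by
  have hN0 : 0 < b ^ L := by positivity
  rw [Real.rpow_sub hN0, Real.rpow_one, div_eq_mul_inv, ← Real.rpow_neg hN0.le,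
    Real.rpow_def_of_pos hN0, Real.log_pow]
  congr 2
  ring

/-- The scale from which the power beats the logarithm. -/
lemma exists_scale {c : ℝ} (hc : 0 < c) (T : ℝ) : ∃ B₁ : ℝ, 1 ≤ B₁ ∧ ∀ x : ℝ, B₁ ≤ x →
    T + 6 * Real.log (32 * x) ≤ x ^ c / 4 := by
  have h1 := (isLittleO_log_rpow_atTop hc).bound (show (0 : ℝ) < 1 / 48 by norm_num)
  have h2 := (tendsto_rpow_atTop hc).eventually_ge_atTop (8 * (T + 6 * Real.log 32))
  obtain ⟨B₁, hB₁⟩ := Filter.eventually_atTop.1 (h1.and h2)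
  refine ⟨max B₁ 1, le_max_right _ _, fun x hx => ?_⟩
  have hx1 : 1 ≤ x := (le_max_right _ _).trans hx
  have hx0 : 0 < x := by linarith
  obtain ⟨g1, g2⟩ := hB₁ x ((le_max_left _ _).trans hx)
  rw [Real.norm_of_nonneg (Real.log_nonneg hx1), Real.norm_of_nonneg (by positivity)] at g1
  rw [Real.log_mul (by norm_num) hx0.ne']
  linarith

/-- The logarithmic form of the bound. -/
lemma log_r {r : ℕ → ℕ} {C c : ℝ} (hC : 0 < C) (hr : ∀ N : ℕ, 1 ≤ N →
      (r N : ℝ) ≤ C * N * Real.exp (-(Real.log N) ^ c)) (hr1 : ∀ n, 1 ≤ n → 1 ≤ r n) {b : ℕ}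
    (hb : 1 ≤ b) (n : ℕ) :
    Real.log (r (b ^ n)) ≤ Real.log C + n * Real.log b - (n * Real.log b) ^ c := by
  have h1 := num_pow hr hb n
  have hb0 : (0 : ℝ) < b := by exact_mod_cast hb
  have h2 : (0 : ℝ) < r (b ^ n) := by
    exact_mod_cast hr1 _ (Nat.one_le_pow _ _ hb)
  have h3 := Real.log_le_log h2 h1
  have hp : (0 : ℝ) < (b : ℝ) ^ n := by positivity
  rw [Real.log_mul (mul_pos hC hp).ne' (Real.exp_pos _).ne', Real.log_mul hC.ne' hp.ne',
    Real.log_exp, Real.log_pow] at h3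
  linarith

/-- The end of the long words. -/
lemma fin_long {X L : ℕ} {b β C T y A : ℝ} (hb : 0 < b) (hβ : β = Real.log b) (hβp : 0 < β)
    (hC1 : 1 ≤ C) (hmain : Real.log X ≤ L * β - y / 64 * (L * β)) (h : T ≤ A / 64) (h' : A ≤ y) :
    (X : ℝ) ≤ C * b ^ L * Real.exp (-(T * (L * β))) := by
  rcases Nat.eq_zero_or_pos X with h0 | h0
  · rw [h0, Nat.cast_zero]
    positivity
  · have hXp : (0 : ℝ) < X := by exact_mod_cast h0
    have h3 : 0 ≤ (L : ℝ) * β := by positivity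
    have h4 : T * (L * β) ≤ y / 64 * (L * β) := mul_le_mul_of_nonneg_right (by linarith) h3
    have h6 : Real.log X ≤ L * β + (-(T * (L * β))) := by linarith
    have h7 := Real.exp_le_exp.2 h6
    rw [Real.exp_log hXp, Real.exp_add] at h7
    have h8 : Real.exp (L * β) = b ^ L := by
      rw [Real.exp_nat_mul, hβ, Real.exp_log hb]
    rw [h8] at h7
    refine h7.trans ?_
    apply mul_le_mul_of_nonneg_right _ (Real.exp_pos _).le
    exact le_mul_of_one_le_left (by positivity) hC1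

/-- The saving per letter. -/
lemma gM {M L : ℕ} {β x c : ℝ} (hM : 1 ≤ M) (hβp : 0 < β) (hx0 : 0 < x) (hx : x = M * β / 4) :
    (x ^ c / 16) / M * L = x ^ (c - 1) / 64 * (L * β) := by
  have hMr : (0 : ℝ) < M := by exact_mod_cast hM
  have h2 : (M : ℝ) = 4 * x / β := by
    rw [eq_div_iff hβp.ne', hx]
    ring
  have hxc1 : x ^ c = x * x ^ (c - 1) := by
    rw [Real.rpow_sub hx0, Real.rpow_one]
    field_simp
  rw [h2, hxc1]
  field_simp
  ring

/-- The need at the block length. -/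
lemma need_le {Q M : ℕ} {β x xc C : ℝ} (hQ : 1 ≤ Q) (hM : 1 ≤ M) (hβ2 : 1 / 2 < β)
    (hx : x = M * β / 4) (h1 : Real.log C + 2 * Real.log 2 + 50 + 6 * Real.log (32 * x) ≤ xc / 4)
    (h2 : 24 * Real.log Q ≤ xc) : need Q M (xc / 16) + Real.log C ≤ xc := by
  have hQp : (0 : ℝ) < Q := by exact_mod_cast hQ
  have hMr : (0 : ℝ) < M := by exact_mod_cast hM
  unfold need
  have h3 : Real.log (2 * (Q : ℝ) ^ 3) = Real.log 2 + 3 * Real.log Q := by
    rw [Real.log_mul (by norm_num) (by positivity), Real.log_pow]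
    norm_num
  have h4 : Real.log (4 * (M : ℝ)) ≤ Real.log (32 * x) := by
    apply Real.log_le_log (by positivity)
    rw [hx]
    nlinarith
  rw [h3]
  linarith

theorem num : Num := by
  intro k hk r hr1 H ε hε
  have h1ε : 0 < 1 + ε := by linarith
  obtain ⟨c, hc⟩ : ∃ c : ℝ, c = 1 / (1 + ε) := ⟨_, rfl⟩
  have hc0 : 0 < c := by rw [hc]; positivity
  have hc1 : c < 1 := by rw [hc, div_lt_one h1ε]; linarith
  have hce1 : (1 + ε) * c = 1 := by rw [hc]; field_simp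
  have hce : (1 + ε) * (c - 1) = -ε := by rw [mul_sub, hce1]; ring
  obtain ⟨C0, hC0, hr0⟩ := H c hc1
  obtain ⟨C, hC⟩ : ∃ C : ℝ, C = max C0 1 := ⟨_, rfl⟩
  have hC1 : 1 ≤ C := by rw [hC]; exact le_max_right _ _
  have hCp : 0 < C := by linarith
  have hr : ∀ N : ℕ, 1 ≤ N → (r N : ℝ) ≤ C * N * Real.exp (-(Real.log N) ^ c) := by
    intro N hN
    refine (hr0 N hN).trans ?_
    have h1 : C0 ≤ C := by rw [hC]; exact le_max_left _ _
    gcongr
  have hlogC : 0 ≤ Real.log C := Real.log_nonneg hC1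
  obtain ⟨B₁, hB₁, hscale⟩ := exists_scale hc0 (Real.log C + 2 * Real.log 2 + 50)
  obtain ⟨B₂, hB₂⟩ : ∃ B₂ : ℝ, B₂ = (24 : ℝ) ^ (1 + ε) := ⟨_, rfl⟩
  have hB₂p : 0 < B₂ := by rw [hB₂]; positivity
  have hB₂c : B₂ ^ c = 24 := by
    rw [hB₂, ← Real.rpow_mul (by norm_num), hce1, Real.rpow_one]
  obtain ⟨Bm, hBm⟩ : ∃ B : ℝ, B = max B₁ B₂ := ⟨_, rfl⟩
  have hBB₁ : B₁ ≤ Bm := by rw [hBm]; exact le_max_left _ _
  have hBB₂ : B₂ ≤ Bm := by rw [hBm]; exact le_max_right _ _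
  have hBmp : 0 < Bm := by linarith
  have hBc : 24 ≤ Bm ^ c := by
    rw [← hB₂c]
    exact Real.rpow_le_rpow hB₂p.le hBB₂ hc0.le
  obtain ⟨B, hB⟩ : ∃ B : ℝ, B = 4 * Bm := ⟨_, rfl⟩
  have hBp : 0 < B := by linarith
  have hk4 : 1 ≤ 4 * k := by omega
  obtain ⟨M', hM'⟩ : ∃ M' : ℝ, M' = ((4 * k : ℕ) : ℝ) * (B + 1) := ⟨_, rfl⟩
  have hM'p : 0 < M' := by
    rw [hM']
    have : (1 : ℝ) ≤ ((4 * k : ℕ) : ℝ) := by exact_mod_cast hk4
    positivity
  have hδp : 0 < M' ^ (c - 1) / 64 := by positivity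
  refine ⟨min (1 / 2) (M' ^ (c - 1) / 64), C, lt_min (by norm_num) hδp, min_le_left _ _, hCp, ?_⟩
  obtain ⟨δ, hδ⟩ : ∃ δ : ℝ, δ = min (1 / 2) (M' ^ (c - 1) / 64) := ⟨_, rfl⟩
  rw [← hδ]
  have hδ2 : δ ≤ M' ^ (c - 1) / 64 := by rw [hδ]; exact min_le_right _ _
  intro b Q L X hb hQ hXr hX
  have hb1 : 1 ≤ b := by omega
  have hbr : (2 : ℝ) ≤ b := by exact_mod_cast hb
  have hQr : (1 : ℝ) ≤ Q := by exact_mod_cast hQ
  have hbp : (0 : ℝ) < b := by linarith
  have hQp : (0 : ℝ) < Q := by linarith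
  obtain ⟨β, hβ⟩ : ∃ β : ℝ, β = Real.log b := ⟨_, rfl⟩
  have hβ2 : 1 / 2 < β := by
    rw [hβ]
    have h1 := Real.log_le_log (by norm_num) hbr
    have h2 := Real.log_two_gt_d9
    linarith
  have hβp : 0 < β := by linarith
  have hlogQ : 0 ≤ Real.log Q := Real.log_nonneg hQr
  obtain ⟨W, hW⟩ : ∃ W : ℝ, W = 1 + Real.log (b * Q) := ⟨_, rfl⟩
  have hW' : W = 1 + β + Real.log Q := by
    rw [hW, Real.log_mul hbp.ne' hQp.ne', hβ]; ring
  have hW1 : 1 ≤ W := by linarith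
  have hWp : 0 < W := by linarith
  rw [← hW]
  obtain ⟨A, hA⟩ : ∃ A : ℝ, A = M' ^ (c - 1) / W ^ ε := ⟨_, rfl⟩
  have hAp : 0 ≤ A := by rw [hA]; positivity
  have hδA : δ / W ^ ε ≤ A / 64 := by
    rw [hA, div_right_comm]
    have : 0 < W ^ ε := by positivity
    gcongr
  obtain ⟨M, hM1, hkM, hl1, hl2⟩ := num_block hk4 hβp (by linarith) hW1 hBp hε hM'
  obtain ⟨l, hl⟩ : ∃ l : ℝ, l = M * β := ⟨_, rfl⟩
  have hWe : 0 < W ^ (1 + ε) := Real.rpow_pos_of_pos hWp _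
  have hWe1 : 1 ≤ W ^ (1 + ε) := Real.one_le_rpow hW1 h1ε.le
  rw [← hl] at hl1 hl2
  obtain ⟨x, hx⟩ : ∃ x : ℝ, x = l / 4 := ⟨_, rfl⟩
  have hM4 : 4 * k ≤ M := Nat.le_of_dvd (by omega) hkM
  rw [goal_exp hbp L, ← hβ, ← mul_assoc]
  by_cases hL : L < M
  · -- short words
    have h1 : (X : ℝ) ≤ r (b ^ L) := by exact_mod_cast hXr
    refine h1.trans ((num_pow hr hb1 L).trans ?_)
    rw [← hβ]
    apply mul_le_mul_of_nonneg_left _ (by positivity)
    apply Real.exp_le_exp.2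
    apply neg_le_neg
    have hl0 : 0 < l := by
      rw [hl]
      have : (1 : ℝ) ≤ M := by exact_mod_cast hM1
      positivity
    have hkey := num_len hM'p hWp hc1 hce hl0 hl2
    rw [← hA] at hkey
    have h2 : (L : ℝ) * β ≤ l := by
      rw [hl]
      have : (L : ℝ) ≤ M := by exact_mod_cast hL.le
      gcongr
    refine le_trans ?_ (num_short hc1 hβp h2 hkey hAp)
    have h3 : 0 ≤ (L : ℝ) * β := by positivity
    have h4 : δ / W ^ ε * (L * β) ≤ A / 64 * (L * β) := mul_le_mul_of_nonneg_right hδA h3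
    have h5 : A / 64 * (L * β) ≤ A / 4 * (L * β) := by
      apply mul_le_mul_of_nonneg_right _ h3
      linarith
    linarith
  · -- long words
    rw [not_lt] at hL
    have hx1 : Bm * W ^ (1 + ε) ≤ x := by
      rw [hB] at hl1
      rw [hx]
      linarith
    have hxB : B₁ ≤ x := by
      refine hBB₁.trans (le_trans ?_ hx1)
      exact le_mul_of_one_le_right hBmp.le hWe1
    have hx0 : 0 < x := by linarith
    have hxl : x ≤ l := by rw [hx] at hx0 ⊢; linarith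
    have hkey := num_len hM'p hWp hc1 hce hx0 (hxl.trans hl2)
    rw [← hA] at hkey
    have hxc : 24 * W ≤ x ^ c := by
      have h1 : (Bm * W ^ (1 + ε)) ^ c ≤ x ^ c := Real.rpow_le_rpow (by positivity) hx1 hc0.le
      rw [Real.mul_rpow hBmp.le hWe.le, ← Real.rpow_mul hWp.le, hce1, Real.rpow_one] at h1
      refine le_trans ?_ h1
      gcongr
    have hsc := hscale x hxB
    have hxc0 : 0 ≤ x ^ c := Real.rpow_nonneg hx0.le _
    have hx' : x = M * β / 4 := by rw [hx, hl]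
    have hneed : need Q M (x ^ c / 16) + Real.log C ≤ x ^ c :=
      need_le hQ hM1 hβ2 hx' hsc (by linarith)
    have hmain := hX M (x ^ c / 16) hM1 hL (by positivity) (by
      intro n hn
      have h1 := log_r hCp hr hr1 hb1 n
      rw [← hβ] at h1 ⊢
      have h2 : (M : ℝ) ≤ 4 * n := by
        have : M ≤ 4 * n := by omega
        exact_mod_cast this
      have h3 : x ≤ n * β := by
        have h5 : (M : ℝ) * β ≤ 4 * n * β := mul_le_mul_of_nonneg_right h2 hβp.le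
        rw [hx']
        linarith
      have h4 : x ^ c ≤ (n * β) ^ c := Real.rpow_le_rpow hx0.le h3 hc0.le
      linarith)
    rw [gM hM1 hβp hx0 hx', ← hβ] at hmain
    exact fin_long hbp hβ hβp hC1 hmain hδA hkey

end Vale.Agent.P042.CF
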