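import Vale.Agent.P042.R2.H463CF.Spec

set_option autoImplicit false

/-!
P042.ContextFree: row N (potentials).
-/

namespace Vale.Agent.P042.CF

theorem log2_lt : Real.log 2 < 0.7 := by
  have := Real.log_two_lt_d9
  linarith

theorem q3_nonneg {Q : ℕ} (hQ : 1 ≤ Q) : 0 ≤ Real.log (2 * (Q : ℝ) ^ 3) := by
  apply Real.log_nonneg
  have h1 : (1 : ℝ) ≤ Q := by exact_mod_cast hQ
  have h2 : (1 : ℝ) ≤ (Q : ℝ) ^ 3 := one_le_pow₀ h1
  linarith

theorem lin_nonneg {M n : ℕ} {g : ℝ} (hg : 0 ≤ g) : 0 ≤ g / M * n := by positivity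

theorem log_nat_nonneg' (n : ℕ) : 0 ≤ Real.log (n : ℝ) := Real.log_natCast_nonneg n

/-- `K` in terms of logarithms. -/
theorem Kc_le {Q n : ℕ} (hQ : 1 ≤ Q) (hn : 1 ≤ n) :
    Kc Q n ≤ Real.log (2 * (Q : ℝ) ^ 3) + 3 * Real.log n + 3 * Real.log 2 := by
  have hQ' : (0 : ℝ) < Q := by exact_mod_cast hQ
  have hn' : (1 : ℝ) ≤ n := by exact_mod_cast hn
  have hn0 : (0 : ℝ) < n := by linarith
  unfold Kc
  have h1 : (0 : ℝ) < 2 * (Q : ℝ) ^ 3 := by positivity
  have h2 : (0 : ℝ) < ((n : ℝ) + 1) ^ 3 := by positivity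
  rw [Real.log_mul h1.ne' h2.ne', Real.log_pow]
  have h3 : Real.log ((n : ℝ) + 1) ≤ Real.log n + Real.log 2 := by
    rw [← Real.log_mul hn0.ne' (by norm_num)]
    apply Real.log_le_log (by linarith)
    linarith
  push_cast
  linarith

theorem phiC_ge {Q M n : ℕ} {g : ℝ} (hn : M ≤ n) : phiC Q M g n =
    g / M * n + (Real.log (2 * (Q : ℝ) ^ 3) + 2 * g + 25) + 3 * Real.log n := by
  unfold phiC
  rw [if_neg (by omega)]

theorem phiT_ge {Q M n : ℕ} {g : ℝ} (hn : M ≤ n) : phiT Q M g n =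
    g / M * n + 2 * (Real.log (2 * (Q : ℝ) ^ 3) + 2 * g + 25) + 6 * Real.log n := by
  unfold phiT
  rw [if_neg (by omega)]

theorem n0 : N0 := by
  intro Q M n g hQ hM hg
  have h1 := q3_nonneg hQ
  have h2 : 0 ≤ g / M * (n : ℝ) := lin_nonneg hg
  have h3 := log_nat_nonneg' n
  unfold phiC phiT
  split_ifs
  · simp
  · refine ⟨by linarith, by linarith, by linarith⟩

theorem phiC_lin {Q M n : ℕ} {g : ℝ} (hQ : 1 ≤ Q) (hM : 1 ≤ M) (hg : 0 ≤ g) :
    g / M * n - g ≤ phiC Q M g n := by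
  have hM' : (0 : ℝ) < M := by exact_mod_cast hM
  by_cases hn : M ≤ n
  · rw [phiC_ge hn]
    have h1 := q3_nonneg hQ
    have h3 := log_nat_nonneg' n
    linarith
  · have h0 := (n0 Q M n g hQ hM hg).1
    have h1 : (n : ℝ) ≤ M := by exact_mod_cast (by omega : n ≤ M)
    have h2 : g / M * n ≤ g / M * M := by gcongr
    have h3 : g / M * M = g := by field_simp
    linarith

theorem phiT_lin {Q M n : ℕ} {g : ℝ} (hQ : 1 ≤ Q) (hM : 1 ≤ M) (hg : 0 ≤ g) :
    g / M * n - g ≤ phiT Q M g n :=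
  (phiC_lin hQ hM hg).trans (n0 Q M n g hQ hM hg).2.2

/-- `log s ≥ log n - 2 log 2` when `n ≤ 4 s`. -/
theorem log_quarter {n s : ℕ} (hn : 1 ≤ n) (h : n ≤ 4 * s) :
    Real.log n - 2 * Real.log 2 ≤ Real.log s := by
  have hs : 1 ≤ s := by omega
  have hs' : (0 : ℝ) < s := by exact_mod_cast hs
  have hn' : (0 : ℝ) < n := by exact_mod_cast hn
  have h1 : (n : ℝ) ≤ 2 * (2 * s) := by
    have : (n : ℝ) ≤ 4 * s := by exact_mod_cast h
    linarith
  have h2 : Real.log n ≤ Real.log (2 * (2 * (s : ℝ))) := Real.log_le_log hn' h1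
  rw [Real.log_mul (by norm_num) (by positivity), Real.log_mul (by norm_num) hs'.ne'] at h2
  linarith

theorem log_half {n s : ℕ} (hn : 1 ≤ n) (h : n ≤ 2 * s) :
    Real.log n - Real.log 2 ≤ Real.log s := by
  have hs : 1 ≤ s := by omega
  have hs' : (0 : ℝ) < s := by exact_mod_cast hs
  have hn' : (0 : ℝ) < n := by exact_mod_cast hn
  have h1 : (n : ℝ) ≤ 2 * s := by exact_mod_cast h
  have h2 : Real.log n ≤ Real.log (2 * (s : ℝ)) := Real.log_le_log hn' h1
  rw [Real.log_mul (by norm_num) hs'.ne'] at h2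
  linarith

theorem n1 : N1 := by
  intro Q M n s t g hQ hM hg hMn hst hs ht
  have hn : 1 ≤ n := by omega
  rw [phiT_ge (by omega : M ≤ n), phiC_ge (by omega : M ≤ s), phiT_ge (by omega : M ≤ t)]
  have hK := Kc_le (n := n) hQ hn
  have h1 := log_quarter hn hs
  have h2 := log_quarter hn ht
  have h3 := log2_lt
  have h4 : (n : ℝ) = s + t := by exact_mod_cast hst.symm
  have h5 : g / M * (n : ℝ) = g / M * s + g / M * t := by rw [h4]; ring
  linarith

theorem n2 : N2 := by
  intro Q M n s₁ s₂ t g hQ hM hg hMn hst hs₁ hs₂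
  have hn : 1 ≤ n := by omega
  have hK := Kc_le (n := n) hQ hn
  have h3 := log2_lt
  have h4 : (n : ℝ) = s₁ + s₂ + t := by exact_mod_cast hst.symm
  have h5 : g / M * (n : ℝ) = g / M * s₁ + g / M * s₂ + g / M * t := by rw [h4]; ring
  have hq := q3_nonneg hQ
  rw [phiC_ge (by omega : M ≤ n)]
  by_cases ht : n ≤ 2 * t
  · rw [phiT_ge (by omega : M ≤ t)]
    have e1 := phiC_lin (n := s₁) hQ hM hg
    have e2 := phiC_lin (n := s₂) hQ hM hg
    have e3 := log_half hn ht
    linarith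
  · by_cases c1 : n ≤ 4 * s₁
    · by_cases c2 : n ≤ 4 * s₂
      · rw [phiC_ge (by omega : M ≤ s₁), phiC_ge (by omega : M ≤ s₂)]
        have e1 := phiT_lin (n := t) hQ hM hg
        have e2 := log_quarter hn c1
        have e3 := log_quarter hn c2
        linarith
      · have c3 : n ≤ 4 * t := by omega
        rw [phiC_ge (by omega : M ≤ s₁), phiT_ge (by omega : M ≤ t)]
        have e1 := phiC_lin (n := s₂) hQ hM hg
        have e2 := log_quarter hn c1
        have e3 := log_quarter hn c3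
        have e4 := log_nat_nonneg' t
        linarith
    · have c2 : n ≤ 4 * s₂ := by omega
      have c3 : n ≤ 4 * t := by omega
      rw [phiC_ge (by omega : M ≤ s₂), phiT_ge (by omega : M ≤ t)]
      have e1 := phiC_lin (n := s₁) hQ hM hg
      have e2 := log_quarter hn c2
      have e3 := log_quarter hn c3
      have e4 := log_nat_nonneg' t
      linarith

theorem n3 : N3 := by
  intro Q M n g hQ hM hg hn
  have hM' : (0 : ℝ) < M := by exact_mod_cast hM
  have hq := q3_nonneg hQ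
  have hl : 0 ≤ Real.log (4 * (M : ℝ)) := by
    apply Real.log_nonneg
    have : (1 : ℝ) ≤ M := by exact_mod_cast hM
    linarith
  by_cases h : M ≤ n
  · rw [phiT_ge h]
    unfold need
    have hn0 : (0 : ℝ) < n := by exact_mod_cast (by omega : 0 < n)
    have h1 : (n : ℝ) ≤ 4 * M := by exact_mod_cast hn.le
    have h2 : Real.log n ≤ Real.log (4 * (M : ℝ)) := Real.log_le_log hn0 h1
    have h3 : g / M * n ≤ g / M * (4 * M) := by gcongr
    have h4 : g / M * (4 * M) = 4 * g := by field_simp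
    linarith
  · unfold phiT need
    rw [if_pos (by omega)]
    linarith

end Vale.Agent.P042.CF
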