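import Vale.Agent.P042.R2.H463CF.Spec

set_option autoImplicit false

/-!
P042.ContextFree: row S, the sum over all lengths.
-/

namespace Vale.Agent.P042.CF

open Polynomial Finset

theorem sum_pow_le {x : ℝ} (hx : 4 / 3 ≤ x) (m : ℕ) : ∑ i ∈ range (m + 1), x ^ i ≤ 4 * x ^ m := by
  induction m with
  | zero => simp
  | succ m ih =>
    rw [sum_range_succ]
    have h1 : 0 ≤ x ^ m := by positivity
    have h2 : 4 / 3 * x ^ m ≤ x ^ (m + 1) := by
      rw [pow_succ, mul_comm]
      exact mul_le_mul_of_nonneg_left hx h1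
    linarith

theorem sumL : SumL := by
  classical
  intro b K θ S hb hK hθ hθ1 h N hN
  have hb0 : (0 : ℝ) ≤ b := Nat.cast_nonneg b
  have hb2 : (2 : ℝ) ≤ b := by exact_mod_cast hb
  set x : ℝ := (b : ℝ) ^ θ with hxdef
  have hx : 4 / 3 ≤ x := by
    have h1 : (2 : ℝ) ^ (1 / 2 : ℝ) ≤ (b : ℝ) ^ θ := by
      calc (2 : ℝ) ^ (1 / 2 : ℝ) ≤ (2 : ℝ) ^ θ :=
            Real.rpow_le_rpow_of_exponent_le (by norm_num) hθ
        _ ≤ (b : ℝ) ^ θ := Real.rpow_le_rpow (by norm_num) hb2 (by linarith)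
    have h2 : (4 / 3 : ℝ) ≤ (2 : ℝ) ^ (1 / 2 : ℝ) := by
      rw [← Real.sqrt_eq_rpow]
      exact Real.le_sqrt_of_sq_le (by norm_num)
    exact h2.trans h1
  have hpow : ∀ L : ℕ, ((b : ℝ) ^ L) ^ θ = x ^ L := by
    intro L
    rw [hxdef, ← Real.rpow_natCast, ← Real.rpow_mul hb0, mul_comm, Real.rpow_mul hb0,
      Real.rpow_natCast]
  set m := (Nat.digits b N).length with hm
  have hNm : b ^ m ≤ b * N := Nat.base_pow_length_digits_le b N (by omega) (by omega)
  set A : Finset ℕ := (range N).filter (· ∈ S) with hA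
  have hAS : S ∩ Set.Iio N = (A : Set ℕ) := by
    ext n
    simp [hA, and_comm]
  have hmaps : ∀ n ∈ A, (Nat.digits b n).length ∈ range (m + 1) := by
    intro n hn
    rw [mem_range, Nat.lt_succ_iff, hm]
    have h1 : n < N := mem_range.mp (mem_filter.mp hn).1
    exact Nat.le_length_digits_le b n N h1.le
  have hcard := card_eq_sum_card_fiberwise hmaps
  rw [hAS, Set.ncard_coe_finset, hcard]
  push_cast
  have hfib : ∀ L ∈ range (m + 1),
      ((A.filter fun n => (Nat.digits b n).length = L).card : ℝ) ≤ K * x ^ L := by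
    intro L _
    rw [← hpow]
    refine le_trans ?_ (h L)
    rw [← Set.ncard_coe_finset]
    have hfin : (S ∩ {n | (Nat.digits b n).length = L}).Finite := by
      refine (Set.finite_Iio (b ^ L)).subset ?_
      rintro n ⟨_, hn⟩
      have hn' : (Nat.digits b n).length = L := hn
      rw [Set.mem_Iio, ← hn']
      exact Nat.lt_base_pow_length_digits (by omega)
    have hsub : (((A.filter fun n => (Nat.digits b n).length = L : Finset ℕ)) : Set ℕ) ⊆
        S ∩ {n | (Nat.digits b n).length = L} := by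
      intro n hn
      have hn' := mem_filter.mp (Finset.mem_coe.mp hn)
      exact ⟨(mem_filter.mp hn'.1).2, hn'.2⟩
    exact_mod_cast Set.ncard_le_ncard hsub hfin
  have hb1 : x ≤ b := by
    calc x ≤ (b : ℝ) ^ (1 : ℝ) := Real.rpow_le_rpow_of_exponent_le (by linarith) hθ1
      _ = b := Real.rpow_one _
  have hxm : x ^ m ≤ b * (N : ℝ) ^ θ := by
    rw [← hpow m]
    calc ((b : ℝ) ^ m) ^ θ ≤ ((b : ℝ) * N) ^ θ := by
          apply Real.rpow_le_rpow (by positivity) _ (by linarith)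
          exact_mod_cast hNm
      _ = x * (N : ℝ) ^ θ := Real.mul_rpow hb0 (Nat.cast_nonneg N)
      _ ≤ b * (N : ℝ) ^ θ := by gcongr
  calc ∑ L ∈ range (m + 1), ((A.filter fun n => (Nat.digits b n).length = L).card : ℝ)
      ≤ ∑ L ∈ range (m + 1), K * x ^ L := sum_le_sum hfib
    _ = K * ∑ L ∈ range (m + 1), x ^ L := by rw [mul_sum]
    _ ≤ K * (4 * x ^ m) := by gcongr; exact sum_pow_le hx m
    _ ≤ K * (4 * (b * (N : ℝ) ^ θ)) := by gcongr
    _ = 4 * K * b * (N : ℝ) ^ θ := by ring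

end Vale.Agent.P042.CF
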