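import Vale.Agent.P042.R2.H463CF.Count
import Vale.Agent.P042.R2.H463CF.Card
import Vale.Agent.P042.R2.H463CF.FiberCF
import Vale.Agent.P042.R2.H463CF.Pot
import Vale.Agent.P042.R2.H463CF.SumCF
import Vale.Agent.P042.R2.H463CF.NumCF
import Vale.Agent.P042.R2.H463.Info

set_option autoImplicit false

/-! Context-free sets of integers. -/

namespace Vale.Agent.P042.CF

open Polynomial Finset Vale.Agent.P042.H463

theorem one_le_size (g : ContextFreeGrammar.{0} ℕ) : 1 ≤ size g := by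
  unfold size; omega

/-- Context-free sets of integers without differences `a n ^ k`. -/
theorem cf_bound (g1 : G1) (g2 : G2) {a k : ℕ} (hk : 2 ≤ k)
    (H : AlmostPower (rMax (C (a : ℤ) * X ^ k : ℤ[X]))) {ε : ℝ} (hε : 0 < ε) :
    ∃ δ K : ℝ, 0 < δ ∧ 0 < K ∧ ∀ (b : ℕ) (g : ContextFreeGrammar.{0} ℕ) (S : Set ℕ), 2 ≤ b →
      (∀ n : ℕ, n ∈ S ↔ Nat.digits b n ∈ g.language) →
      (∀ x ∈ S, ∀ y ∈ S, ∀ n : ℕ, 1 ≤ n → x ≠ y + a * n ^ k) → ∀ N : ℕ, 1 ≤ N →
      ((S ∩ Set.Iio N).ncard : ℝ) ≤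
        K * b * (N : ℝ) ^ (1 - δ / (1 + Real.log (b * size g)) ^ ε) := by
  classical
  obtain ⟨δ, K, hδ, hδ2, hK, hnum⟩ := num k (by omega) (rMax (C (a : ℤ) * X ^ k : ℤ[X]))
    (fun n hn => one_le_rMax _ hn) H ε hε
  have h3 : (0 : ℝ) < (3 : ℝ) ^ ε := Real.rpow_pos_of_pos (by norm_num) ε
  refine ⟨δ / 3 ^ ε, 4 * K, div_pos hδ h3, by positivity, ?_⟩
  intro b g S hb hS hfree N hN
  have hsz := one_le_size g
  have hb0 : (0 : ℝ) < b := by
    have : 0 < b := by omega
    exact_mod_cast this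
  have hb2 : (2 : ℝ) ≤ b := by exact_mod_cast hb
  have hs0 : (1 : ℝ) ≤ size g := by exact_mod_cast hsz
  have hcard : ∀ L : ℕ, ((S ∩ {n | (Nat.digits b n).length = L}).ncard : ℝ) ≤
      K * ((b : ℝ) ^ L) ^ (1 - δ / (1 + Real.log (b * (3 * size g : ℕ))) ^ ε) := by
    intro L
    obtain ⟨σ, _, G, S₀, hσ, hG⟩ := g2 g b L hb
    have hset : S ∩ {n | (Nat.digits b n).length = L} = ((TT b G S₀ 0 L : Finset ℕ) : Set ℕ) := by
      ext v
      rw [Finset.mem_coe, memTT (by omega), hG v, g1, Set.mem_inter_iff, hS v,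
        ContextFreeGrammar.mem_language_iff]
      exact ⟨fun h => ⟨h.2, h.1⟩, fun h => ⟨h.2, h.1⟩⟩
    rw [hset, Set.ncard_coe_finset]
    set A : Finset ℤ := (TT b G S₀ 0 L).image (fun v : ℕ => (v : ℤ)) with hA
    have hAcard : A.card = (TT b G S₀ 0 L).card :=
      Finset.card_image_of_injective _ (fun x y h => Int.natCast_inj.1 h)
    have hmemS : ∀ v ∈ TT b G S₀ 0 L, v ∈ S := by
      intro v hv
      have : v ∈ ((TT b G S₀ 0 L : Finset ℕ) : Set ℕ) := Finset.mem_coe.2 hv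
      rw [← hset] at this
      exact this.1
    have hfreeA : DiffFree (C (a : ℤ) * X ^ k : ℤ[X]) A := by
      rw [diffFree_iff]
      intro x hx y hy n hn he
      obtain ⟨x', hx', rfl⟩ := Finset.mem_image.1 hx
      obtain ⟨y', hy', rfl⟩ := Finset.mem_image.1 hy
      exfalso
      refine hfree x' (hmemS x' hx') y' (hmemS y' hy') n hn ?_
      rw [eval_mono] at he
      have h5 : (x' : ℤ) = ((y' + a * n ^ k : ℕ) : ℤ) := by
        push_cast
        linarith
      exact_mod_cast h5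
    refine hnum b (3 * size g) L _ hb (by omega) ?_ ?_
    · rw [← hAcard]
      refine card_le_rMax' hfreeA _ ?_
      intro x hx
      obtain ⟨x', hx', rfl⟩ := Finset.mem_image.1 hx
      refine ⟨by positivity, ?_⟩
      have := derLt b σ G S₀ 0 L x' (by omega) ((memTT (by omega)).1 hx')
      exact_mod_cast this
    · intro M t hM hML ht hr
      exact count (cardT derLt ctxLt splitT) (cardC derLt ctxLt splitC) fiber n0 n1 n2 n3 a k b
        (3 * size g) M L t σ G S₀ A (by omega) hb hM hML ht hσ hfreeA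
        (fun v hv => Finset.mem_image.2 ⟨v, (memTT (by omega)).2 hv, rfl⟩) hr
  -- the exponents
  have hlog1 : 0 ≤ Real.log (b * size g) := Real.log_nonneg (by nlinarith)
  have hlog3 : Real.log (b * (3 * size g : ℕ)) = Real.log 3 + Real.log (b * size g) := by
    rw [← Real.log_mul (by norm_num) (by positivity)]
    congr 1
    push_cast
    ring
  have hl3 : Real.log 3 ≤ 2 := by
    have := Real.log_le_sub_one_of_pos (by norm_num : (0 : ℝ) < 3)
    linarith
  have hl30 : 0 ≤ Real.log 3 := Real.log_nonneg (by norm_num)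
  set w := 1 + Real.log (b * size g) with hw
  set w' := 1 + Real.log (b * (3 * size g : ℕ)) with hw'
  have hw1 : 1 ≤ w := by linarith
  have hw'1 : 1 ≤ w' := by rw [hw', hlog3]; linarith
  have hww : w' ≤ 3 * w := by rw [hw', hlog3, hw]; linarith
  have hpw : w' ^ ε ≤ 3 ^ ε * w ^ ε := by
    rw [← Real.mul_rpow (by norm_num) (by linarith)]
    exact Real.rpow_le_rpow (by linarith) hww hε.le
  have hpw1 : 1 ≤ w' ^ ε := Real.one_le_rpow hw'1 hε.le
  have hpw0 : 0 < w ^ ε := Real.rpow_pos_of_pos (by linarith) ε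
  have hθ : 1 / 2 ≤ 1 - δ / w' ^ ε := by
    have : δ / w' ^ ε ≤ δ := div_le_self hδ.le hpw1
    linarith
  have hθ1 : 1 - δ / w' ^ ε ≤ 1 := by
    have : 0 ≤ δ / w' ^ ε := by positivity
    linarith
  have h10 := sumL b K (1 - δ / w' ^ ε) S hb hK hθ hθ1 hcard N hN
  refine h10.trans ?_
  have hN1 : (1 : ℝ) ≤ N := by exact_mod_cast hN
  refine mul_le_mul_of_nonneg_left ?_ (by positivity)
  refine Real.rpow_le_rpow_of_exponent_le hN1 ?_
  have : δ / 3 ^ ε / w ^ ε ≤ δ / w' ^ ε := by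
    rw [div_div]
    exact div_le_div_of_nonneg_left hδ.le (by linarith) hpw
  linarith

end Vale.Agent.P042.CF
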