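import Vale.Agent.P042.R2.H463CF.Occ

set_option autoImplicit false

/-! The bound for one length. -/

namespace Vale.Agent.P042.CF

open Polynomial Finset

theorem exp_Kc {Q n : ℕ} (hQ : 1 ≤ Q) :
    Real.exp (Kc Q n) = 2 * (Q : ℝ) ^ 3 * ((n : ℝ) + 1) ^ 3 := by
  unfold Kc
  have : (0 : ℝ) < Q := by
    have : 0 < Q := by omega
    exact_mod_cast this
  exact Real.exp_log (by positivity)

theorem count (hcT : CardT) (hcC : CardC) (hf : Fiber) (h0 : N0) (h1 : N1) (h2 : N2) (h3 : N3) :
    Count := by
  intro a k b Q M L g σ _ G S A hk hb hM hML hg hQ hA hacc hr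
  have hb0 : (0 : ℝ) < b := by
    have : 0 < b := by omega
    exact_mod_cast this
  have hQ1 : 1 ≤ Q := by
    have : 0 < Fintype.card σ := Fintype.card_pos_iff.2 ⟨S⟩
    omega
  have hQr : (Fintype.card σ : ℝ) ≤ Q := by exact_mod_cast hQ
  have hQ1r : (1 : ℝ) ≤ Q := by exact_mod_cast hQ1
  have hc0 : (0 : ℝ) ≤ Fintype.card σ := Nat.cast_nonneg _
  set lam := Real.log b with hlam
  have main : ∀ n : ℕ,
      (∀ X p, OccT b G S L X p n →
        ((TT b G X p n).card : ℝ) ≤ Real.exp (n * lam - phiT Q M g n)) ∧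
      (∀ l Y X p i j, i + j = n → OccC b G S L l Y X p i j →
        ((CC b G l Y X p i j).card : ℝ) ≤ Real.exp (n * lam - phiC Q M g n)) := by
    intro n
    induction n using Nat.strong_induction_on with
    | _ n ih =>
      have hT : ∀ X p, OccT b G S L X p n →
          ((TT b G X p n).card : ℝ) ≤ Real.exp (n * lam - phiT Q M g n) := by
        intro X p ho
        rcases Nat.lt_or_ge n M with hn | hn
        · have e : phiT Q M g n = 0 := by unfold phiT; rw [if_pos hn]
          rw [e, sub_zero]
          exact trivT hb X p n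
        rcases Nat.lt_or_ge n (4 * M) with hn4 | hn4
        · refine (shortT hf hk hb hA hr hacc (by omega) ho).trans ?_
          refine Real.exp_le_exp.2 ?_
          have := h3 Q M n g hQ1 hM hg hn4
          linarith
        · have hB : ((TT b G X p n).card : ℝ) ≤ (Fintype.card σ : ℝ) * ((n : ℝ) + 1) ^ 2 *
              Real.exp (n * lam - phiT Q M g n - Kc Q n) := by
            refine hcT b σ G X p n ((n + 1) / 2) _ (by omega) (by omega) (by omega)
              (Real.exp_pos _).le ?_
            intro Y i l' j e ht1 ht2 hne1 hne2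
            obtain ⟨x, hx⟩ := hne1
            obtain ⟨v, hv⟩ := hne2
            have hx' : CtxE b G l' Y X p i j := ⟨_, _, (memCC (by omega)).1 hx⟩
            have hv' : DerE b G Y (p + i) l' := ⟨_, (memTT (by omega)).1 hv⟩
            have hoT : OccT b G S L Y (p + i) l' :=
              (ho.cast rfl (by omega) : OccT b G S L X p (i + l' + j)).sub hx'
            have hoC : OccC b G S L l' Y X p i j := ⟨ho.cast rfl (by omega), hv'⟩
            have b1 := (ih (i + j) (by omega)).2 l' Y X p i j rfl hoC
            have b2 := (ih l' (by omega)).1 Y (p + i) hoT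
            have b3 := h1 Q M n (i + j) l' g hQ1 hM hg hn4 (by omega) (by omega) (by omega)
            calc ((CC b G l' Y X p i j).card : ℝ) * ((TT b G Y (p + i) l').card : ℝ)
                ≤ Real.exp (((i + j : ℕ) : ℝ) * lam - phiC Q M g (i + j)) *
                  Real.exp (l' * lam - phiT Q M g l') :=
                  mul_le_mul b1 b2 (Nat.cast_nonneg _) (Real.exp_pos _).le
              _ ≤ Real.exp (n * lam - phiT Q M g n - Kc Q n) := by
                  rw [← Real.exp_add]
                  refine Real.exp_le_exp.2 ?_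
                  have e' : (n : ℝ) = ((i + j : ℕ) : ℝ) + l' := by
                    rw [← e]; push_cast; ring
                  rw [e']
                  rw [e'] at *
                  nlinarith [b3]
          refine hB.trans ?_
          have hK : (Fintype.card σ : ℝ) * ((n : ℝ) + 1) ^ 2 ≤ Real.exp (Kc Q n) := by
            rw [exp_Kc hQ1]
            have hn1 : (1 : ℝ) ≤ (n : ℝ) + 1 := by
              have : (0 : ℝ) ≤ n := Nat.cast_nonneg _
              linarith
            have e1 : ((n : ℝ) + 1) ^ 2 ≤ ((n : ℝ) + 1) ^ 3 := pow_le_pow_right₀ hn1 (by norm_num)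
            have e2 : (Fintype.card σ : ℝ) ≤ 2 * (Q : ℝ) ^ 3 := by
              have : (Q : ℝ) ≤ (Q : ℝ) ^ 3 := le_self_pow₀ hQ1r (by norm_num)
              linarith
            exact mul_le_mul e2 e1 (by positivity) (by positivity)
          calc (Fintype.card σ : ℝ) * ((n : ℝ) + 1) ^ 2 *
                Real.exp (n * lam - phiT Q M g n - Kc Q n)
              ≤ Real.exp (Kc Q n) * Real.exp (n * lam - phiT Q M g n - Kc Q n) :=
                mul_le_mul_of_nonneg_right hK (Real.exp_pos _).le
            _ = Real.exp (n * lam - phiT Q M g n) := by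
                rw [← Real.exp_add]; congr 1; ring
      refine ⟨hT, ?_⟩
      intro l Y X p i j hij ho
      rcases Nat.lt_or_ge n M with hn | hn
      · have e : phiC Q M g n = 0 := by unfold phiC; rw [if_pos hn]
        rw [e, sub_zero, ← hij]
        exact trivC hb l Y X p i j
      rcases Nat.lt_or_ge n (4 * M) with hn4 | hn4
      · refine (shortC hf hk hb hA hr hacc (by omega) ho).trans ?_
        rw [hij]
        refine Real.exp_le_exp.2 ?_
        have e1 := h3 Q M n g hQ1 hM hg hn4
        have e2 := (h0 Q M n g hQ1 hM hg).2.2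
        linarith
      · obtain ⟨hoX, hoY⟩ := ho
        -- the bound for three pieces
        have three : ∀ s₁ s₂ t : ℕ, s₁ + s₂ + t = n → 2 * s₁ ≤ n → 2 * s₂ ≤ n →
            ∀ x y z : ℝ, 0 ≤ x → 0 ≤ y → 0 ≤ z → x ≤ Real.exp (s₁ * lam - phiC Q M g s₁) →
            y ≤ Real.exp (s₂ * lam - phiC Q M g s₂) → z ≤ Real.exp (t * lam - phiT Q M g t) →
            x * y * z ≤ Real.exp (n * lam - phiC Q M g n - Kc Q n) := by
          intro s₁ s₂ t e e1 e2 x y z hx0 hy0 hz0 hx hy hz
          have b3 := h2 Q M n s₁ s₂ t g hQ1 hM hg hn4 e e1 e2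
          calc x * y * z ≤ Real.exp (s₁ * lam - phiC Q M g s₁) *
                Real.exp (s₂ * lam - phiC Q M g s₂) * Real.exp (t * lam - phiT Q M g t) :=
                mul_le_mul (mul_le_mul hx hy hy0 (Real.exp_pos _).le) hz hz0 (by positivity)
            _ ≤ _ := by
                rw [← Real.exp_add, ← Real.exp_add]
                refine Real.exp_le_exp.2 ?_
                have e' : (n : ℝ) * lam = s₁ * lam + s₂ * lam + t * lam := by
                  rw [← e]; push_cast; ring
                rw [e']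
                linarith
        have hB : ((CC b G l Y X p i j).card : ℝ) ≤
            2 * (Fintype.card σ : ℝ) ^ 3 * ((i : ℝ) + j + 1) ^ 3 *
              Real.exp (n * lam - phiC Q M g n - Kc Q n) := by
          refine hcC b σ G l Y X p i j ((n + 1) / 2) _ (by omega) (by omega) (by omega)
            (Real.exp_pos _).le ?_ ?_
          · intro Z Z₁ Z₂ i₁ j₁ i₂ j₂ j₃ e1 e2 e3 e4 hZ hn1 hn2 hn3
            obtain ⟨x, hx⟩ := hn1
            obtain ⟨y, hy⟩ := hn2
            obtain ⟨v, hv⟩ := hn3
            have cO : CtxE b G (i₂ + l + (j₂ + j₃)) Z X p i₁ j₁ := ⟨_, _, (memCC (by omega)).1 hx⟩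
            have cI : CtxE b G l Y Z₁ (p + i₁) i₂ j₂ := ⟨_, _, (memCC (by omega)).1 hy⟩
            have dT : DerE b G Z₂ (p + i₁ + (i₂ + l + j₂)) j₃ := ⟨_, (memTT (by omega)).1 hv⟩
            have hoY' : DerE b G Y (p + i₁ + i₂) l := hoY.cast (by omega) rfl
            have d1 : DerE b G Z₁ (p + i₁) (i₂ + l + j₂) := plugE cI hoY'
            have dZ : DerE b G Z (p + i₁) (i₂ + l + (j₂ + j₃)) :=
              (nodeE hZ d1 dT).cast rfl (by omega)
            have oX : OccT b G S L X p (i₁ + (i₂ + l + (j₂ + j₃)) + j₁) :=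
              hoX.cast rfl (by omega)
            have oZ : OccT b G S L Z (p + i₁) (i₂ + l + (j₂ + j₃)) := oX.sub cO
            have o1 : OccT b G S L Z₁ (p + i₁) (i₂ + l + j₂) :=
              ((oZ.cast rfl (by omega) : OccT b G S L Z (p + i₁) (0 + (i₂ + l + j₂) + j₃)).sub
                (leftE hZ dT)).cast (by omega) rfl
            have o2 : OccT b G S L Z₂ (p + i₁ + (i₂ + l + j₂)) j₃ :=
              (oZ.cast rfl (by omega) : OccT b G S L Z (p + i₁) (i₂ + l + j₂ + j₃ + 0)).sub
                (rightE hZ d1)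
            have b1 := (ih (i₁ + j₁) (by omega)).2 _ Z X p i₁ j₁ rfl ⟨oX, dZ⟩
            have b2 := (ih (i₂ + j₂) (by omega)).2 l Y Z₁ (p + i₁) i₂ j₂ rfl ⟨o1, hoY'⟩
            have b3 : ((TT b G Z₂ (p + i₁ + (i₂ + l + j₂)) j₃).card : ℝ) ≤
                Real.exp (j₃ * lam - phiT Q M g j₃) := by
              rcases Nat.lt_or_ge j₃ n with hj | hj
              · exact (ih j₃ hj).1 Z₂ _ o2
              · have : j₃ = n := by omega
                subst this
                exact hT Z₂ _ o2
            exact three (i₁ + j₁) (i₂ + j₂) j₃ (by omega) (by omega) (by omega) _ _ _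
              (Nat.cast_nonneg _) (Nat.cast_nonneg _) (Nat.cast_nonneg _) b1 b2 b3
          · intro Z Z₁ Z₂ i₁ j₁ i₂ j₂ i₃ e1 e2 e3 e4 hZ hn1 hn2 hn3
            obtain ⟨x, hx⟩ := hn1
            obtain ⟨v, hv⟩ := hn2
            obtain ⟨y, hy⟩ := hn3
            have cO : CtxE b G (i₃ + i₂ + l + j₂) Z X p i₁ j₁ := ⟨_, _, (memCC (by omega)).1 hx⟩
            have cI : CtxE b G l Y Z₂ (p + i₁ + i₃) i₂ j₂ := ⟨_, _, (memCC (by omega)).1 hy⟩
            have dT : DerE b G Z₁ (p + i₁) i₃ := ⟨_, (memTT (by omega)).1 hv⟩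
            have hoY' : DerE b G Y (p + i₁ + i₃ + i₂) l := hoY.cast (by omega) rfl
            have d1 : DerE b G Z₂ (p + i₁ + i₃) (i₂ + l + j₂) := plugE cI hoY'
            have dZ : DerE b G Z (p + i₁) (i₃ + i₂ + l + j₂) :=
              (nodeE hZ dT d1).cast rfl (by omega)
            have oX : OccT b G S L X p (i₁ + (i₃ + i₂ + l + j₂) + j₁) :=
              hoX.cast rfl (by omega)
            have oZ : OccT b G S L Z (p + i₁) (i₃ + i₂ + l + j₂) := oX.sub cO
            have o1 : OccT b G S L Z₂ (p + i₁ + i₃) (i₂ + l + j₂) :=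
              (oZ.cast rfl (by omega) : OccT b G S L Z (p + i₁) (i₃ + (i₂ + l + j₂) + 0)).sub
                (rightE hZ dT)
            have o2 : OccT b G S L Z₁ (p + i₁) i₃ :=
              ((oZ.cast rfl (by omega) : OccT b G S L Z (p + i₁) (0 + i₃ + (i₂ + l + j₂))).sub
                (leftE hZ d1)).cast (by omega) rfl
            have b1 := (ih (i₁ + j₁) (by omega)).2 _ Z X p i₁ j₁ rfl ⟨oX, dZ⟩
            have b2 := (ih (i₂ + j₂) (by omega)).2 l Y Z₂ (p + i₁ + i₃) i₂ j₂ rfl ⟨o1, hoY'⟩
            have b3 : ((TT b G Z₁ (p + i₁) i₃).card : ℝ) ≤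
                Real.exp (i₃ * lam - phiT Q M g i₃) := by
              rcases Nat.lt_or_ge i₃ n with hj | hj
              · exact (ih i₃ hj).1 Z₁ _ o2
              · have : i₃ = n := by omega
                subst this
                exact hT Z₁ _ o2
            have := three (i₁ + j₁) (i₂ + j₂) i₃ (by omega) (by omega) (by omega) _ _ _
              (Nat.cast_nonneg _) (Nat.cast_nonneg _) (Nat.cast_nonneg _) b1 b2 b3
            refine le_trans (le_of_eq ?_) this
            ring
        refine hB.trans ?_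
        have hK : 2 * (Fintype.card σ : ℝ) ^ 3 * ((i : ℝ) + j + 1) ^ 3 ≤ Real.exp (Kc Q n) := by
          rw [exp_Kc hQ1]
          have e1 : (i : ℝ) + j = n := by exact_mod_cast hij
          rw [e1]
          have e2 : (Fintype.card σ : ℝ) ^ 3 ≤ (Q : ℝ) ^ 3 := pow_le_pow_left₀ hc0 hQr 3
          have : (0 : ℝ) ≤ ((n : ℝ) + 1) ^ 3 := by positivity
          nlinarith [mul_le_mul_of_nonneg_right e2 this]
        calc 2 * (Fintype.card σ : ℝ) ^ 3 * ((i : ℝ) + j + 1) ^ 3 *
              Real.exp (n * lam - phiC Q M g n - Kc Q n)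
            ≤ Real.exp (Kc Q n) * Real.exp (n * lam - phiC Q M g n - Kc Q n) :=
              mul_le_mul_of_nonneg_right hK (Real.exp_pos _).le
          _ = Real.exp (n * lam - phiC Q M g n) := by
              rw [← Real.exp_add]; congr 1; ring
  -- the conclusion
  have hS : OccT b G S L S 0 L := ⟨0, ⟨0, 0, Ctx.base 0⟩, by omega⟩
  have hfin := (main L).1 S 0 hS
  have hphi : g / M * L ≤ phiT Q M g L := by
    unfold phiT
    rw [if_neg (by omega)]
    have e1 : 0 ≤ Real.log L := Real.log_natCast_nonneg L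
    have e2 : 0 ≤ Real.log (2 * (Q : ℝ) ^ 3) := by
      refine Real.log_nonneg ?_
      have : (1 : ℝ) ≤ (Q : ℝ) ^ 3 := one_le_pow₀ hQ1r
      linarith
    linarith
  rcases Nat.eq_zero_or_pos (TT b G S 0 L).card with h | h
  · rw [h, Nat.cast_zero, Real.log_zero]
    -- the empty set
    have hM' : (0 : ℝ) < M := by exact_mod_cast hM
    have hneed : need Q M g ≤ M * lam := by
      have := hr M (by omega)
      have h9 : 0 ≤ Real.log (rMax (C (a : ℤ) * X ^ k : ℤ[X]) (b ^ M)) :=
        Real.log_natCast_nonneg _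
      linarith
    have hgn : g ≤ need Q M g := by
      unfold need
      have e2 : 0 ≤ Real.log (2 * (Q : ℝ) ^ 3) := by
        refine Real.log_nonneg ?_
        have : (1 : ℝ) ≤ (Q : ℝ) ^ 3 := one_le_pow₀ hQ1r
        linarith
      have e3 : 0 ≤ Real.log (4 * (M : ℝ)) := by
        refine Real.log_nonneg ?_
        have : (1 : ℝ) ≤ M := by exact_mod_cast hM
        linarith
      linarith
    have h10 : g / M ≤ lam := by
      rw [div_le_iff₀ hM']
      linarith
    have h11 : (0 : ℝ) ≤ L := Nat.cast_nonneg _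
    nlinarith
  · have h4 : (0 : ℝ) < ((TT b G S 0 L).card : ℝ) := by exact_mod_cast h
    have h5 := (Real.log_le_iff_le_exp h4).2 hfin
    linarith

end Vale.Agent.P042.CF
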