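import Vale.Agent.P042.R2.H463CF.Spec

set_option autoImplicit false

/-!
P042.ContextFree: row G1 (leftmost tree derivations are the derivations of Mathlib).
-/

namespace Vale.Agent.P042.CF

open ContextFreeGrammar

theorem LD.words {g : ContextFreeGrammar.{0} ℕ} (w : List ℕ) :
    LD g (w.map Symbol.terminal) w := by
  induction w with
  | nil => exact LD.nil
  | cons d w ih => exact LD.term d _ w ih

theorem LD.append {g : ContextFreeGrammar.{0} ℕ} {α β : List (Symbol ℕ g.NT)} {u v : List ℕ}
    (h₁ : LD g α u) (h₂ : LD g β v) : LD g (α ++ β) (u ++ v) := by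
  induction h₁ with
  | nil => simpa using h₂
  | term d α w _ ih => exact LD.term d _ _ ih
  | nt r α u v' hr hu hv ihu ihv =>
    rw [List.append_assoc, List.cons_append]
    exact LD.nt r _ _ _ hr hu ihv

theorem LD.split {g : ContextFreeGrammar.{0} ℕ} (α : List (Symbol ℕ g.NT)) :
    ∀ (β : List (Symbol ℕ g.NT)) (w : List ℕ), LD g (α ++ β) w →
      ∃ u v, w = u ++ v ∧ LD g α u ∧ LD g β v := by
  induction α with
  | nil => intro β w h; exact ⟨[], w, rfl, LD.nil, h⟩
  | cons s α ih =>
    intro β w h
    rw [List.cons_append] at h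
    cases h with
    | term d _ w' h' =>
      obtain ⟨u, v, rfl, hu, hv⟩ := ih β w' h'
      exact ⟨d :: u, v, rfl, LD.term d α u hu, hv⟩
    | nt r _ x y hr hx hy =>
      obtain ⟨u, v, rfl, hu, hv⟩ := ih β y hy
      exact ⟨x ++ u, v, by rw [List.append_assoc], LD.nt r α x u hr hx hu, hv⟩

theorem LD.to_derives {g : ContextFreeGrammar.{0} ℕ} {α : List (Symbol ℕ g.NT)} {w : List ℕ}
    (h : LD g α w) : g.Derives α (w.map Symbol.terminal) := by
  induction h with
  | nil => exact Derives.refl _
  | term d α w _ ih => exact ih.append_left [Symbol.terminal d]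
  | nt r α u v hr _ _ ihu ihv =>
    have h1 : g.Produces (Symbol.nonterminal r.input :: α) (r.output ++ α) :=
      ⟨r, hr, ContextFreeRule.Rewrites.head α⟩
    have h2 : g.Derives (r.output ++ α) (u.map Symbol.terminal ++ α) := ihu.append_right α
    have h3 : g.Derives (u.map Symbol.terminal ++ α)
        (u.map Symbol.terminal ++ v.map Symbol.terminal) := ihv.append_left _
    rw [List.map_append]
    exact (h1.trans_derives h2).trans h3

theorem LD.of_derives {g : ContextFreeGrammar.{0} ℕ} {α : List (Symbol ℕ g.NT)} {w : List ℕ}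
    (h : g.Derives α (w.map Symbol.terminal)) : LD g α w := by
  induction h using Relation.ReflTransGen.head_induction_on with
  | refl => exact LD.words w
  | head h1 _ ih =>
    obtain ⟨r, hr, hrw⟩ := h1
    obtain ⟨p, q, rfl, rfl⟩ := (ContextFreeRule.rewrites_iff).1 hrw
    obtain ⟨x, z, rfl, hx, hz⟩ := LD.split _ _ _ ih
    obtain ⟨x1, y, rfl, hx1, hy⟩ := LD.split _ _ _ hx
    refine LD.append (LD.append hx1 ?_) hz
    have := LD.nt r [] y [] hr hy LD.nil
    rwa [List.append_nil] at this

theorem g1 : G1 := fun _ _ _ => ⟨LD.to_derives, LD.of_derives⟩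

end Vale.Agent.P042.CF
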