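import Vale.Agent.P042.R2.H463CF.Spec

set_option autoImplicit false

/-! Grammars of Mathlib as binary grammars. -/

namespace Vale.Agent.P042.CF

open Finset

open Classical in
/-- The states. -/
noncomputable def states (g : ContextFreeGrammar.{0} ℕ) : Finset (List (Symbol ℕ g.NT)) :=
  ({[], [Symbol.nonterminal g.initial]} : Finset (List (Symbol ℕ g.NT))) ∪
    (g.rules.biUnion fun r => r.output.tails.toFinset) ∪
    (g.rules.biUnion fun r => (r.output.map fun s => [s]).toFinset)

theorem card_states (g : ContextFreeGrammar.{0} ℕ) : (states g).card ≤ 3 * size g := by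
  classical
  unfold states size
  have h1 : ((({[], [Symbol.nonterminal g.initial]} : Finset (List (Symbol ℕ g.NT))) ∪
      (g.rules.biUnion fun r => r.output.tails.toFinset) ∪
      (g.rules.biUnion fun r => (r.output.map fun s => [s]).toFinset))).card ≤
      (2 + ∑ r ∈ g.rules, (r.output.length + 1)) + ∑ r ∈ g.rules, (r.output.length + 1) := by
    refine (Finset.card_union_le _ _).trans (Nat.add_le_add ?_ ?_)
    · refine (Finset.card_union_le _ _).trans (Nat.add_le_add ?_ ?_)
      · exact Finset.card_le_two
      · refine (Finset.card_biUnion_le).trans (Finset.sum_le_sum fun r _ => ?_)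
        refine (List.toFinset_card_le _).trans ?_
        rw [List.length_tails]
    · refine (Finset.card_biUnion_le).trans (Finset.sum_le_sum fun r _ => ?_)
      refine (List.toFinset_card_le _).trans ?_
      rw [List.length_map]
      omega
  have h2 : (states g).card ≤
      (2 + ∑ r ∈ g.rules, (r.output.length + 1)) + ∑ r ∈ g.rules, (r.output.length + 1) := by
    unfold states
    convert h1
  unfold states at h2
  refine (le_of_eq ?_).trans (h2.trans ?_)
  · congr
  · omega

theorem nil_mem (g : ContextFreeGrammar.{0} ℕ) : [] ∈ states g := by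
  classical
  unfold states
  simp

theorem init_mem (g : ContextFreeGrammar.{0} ℕ) : [Symbol.nonterminal g.initial] ∈ states g := by
  classical
  unfold states
  simp

theorem output_mem (g : ContextFreeGrammar.{0} ℕ) {r : ContextFreeRule ℕ g.NT} (hr : r ∈ g.rules) :
    r.output ∈ states g := by
  classical
  unfold states
  refine Finset.mem_union_left _ (Finset.mem_union_right _ ?_)
  refine Finset.mem_biUnion.2 ⟨r, hr, ?_⟩
  rw [List.mem_toFinset, List.mem_tails]

theorem tail_mem (g : ContextFreeGrammar.{0} ℕ) {s : Symbol ℕ g.NT} {α : List (Symbol ℕ g.NT)}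
    (h : s :: α ∈ states g) : α ∈ states g := by
  classical
  unfold states at h
  rcases Finset.mem_union.1 h with h | h
  · rcases Finset.mem_union.1 h with h | h
    · have : α = [] := by
        rcases Finset.mem_insert.1 h with h | h
        · cases h
        · have := Finset.mem_singleton.1 h
          exact (List.cons.inj this).2
      rw [this]
      exact nil_mem g
    · obtain ⟨r, hr, h⟩ := Finset.mem_biUnion.1 h
      rw [List.mem_toFinset, List.mem_tails] at h
      unfold states
      refine Finset.mem_union_left _ (Finset.mem_union_right _ ?_)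
      refine Finset.mem_biUnion.2 ⟨r, hr, ?_⟩
      rw [List.mem_toFinset, List.mem_tails]
      exact (List.suffix_cons s α).trans h
  · obtain ⟨r, hr, h⟩ := Finset.mem_biUnion.1 h
    rw [List.mem_toFinset, List.mem_map] at h
    obtain ⟨s', _, h⟩ := h
    have : α = [] := (List.cons.inj h).2.symm
    rw [this]
    exact nil_mem g

theorem head_mem (g : ContextFreeGrammar.{0} ℕ) {d : ℕ} {α : List (Symbol ℕ g.NT)}
    (h : Symbol.terminal d :: α ∈ states g) :
    ([Symbol.terminal d] : List (Symbol ℕ g.NT)) ∈ states g := by
  classical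
  unfold states at h
  rcases Finset.mem_union.1 h with h | h
  · rcases Finset.mem_union.1 h with h | h
    · exfalso
      rcases Finset.mem_insert.1 h with h | h
      · cases h
      · have := Finset.mem_singleton.1 h
        have h2 := (List.cons.inj this).1
        cases h2
    · obtain ⟨r, hr, h⟩ := Finset.mem_biUnion.1 h
      rw [List.mem_toFinset, List.mem_tails] at h
      unfold states
      refine Finset.mem_union_right _ ?_
      refine Finset.mem_biUnion.2 ⟨r, hr, ?_⟩
      rw [List.mem_toFinset, List.mem_map]
      exact ⟨Symbol.terminal d, h.subset (List.mem_cons_self), rfl⟩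
  · obtain ⟨r, hr, h⟩ := Finset.mem_biUnion.1 h
    rw [List.mem_toFinset, List.mem_map] at h
    obtain ⟨s', hs', h⟩ := h
    unfold states
    refine Finset.mem_union_right _ ?_
    refine Finset.mem_biUnion.2 ⟨r, hr, ?_⟩
    rw [List.mem_toFinset, List.mem_map]
    exact ⟨s', hs', by rw [(List.cons.inj h).1]⟩

/-- The binary grammar. -/
def gram (g : ContextFreeGrammar.{0} ℕ) (L : ℕ) : Gr {α // α ∈ states g} where
  r0 X := X.1 = []
  r1 X p d := X.1 = [Symbol.terminal d] ∧ (p + 1 = L → d ≠ 0)
  r2 X Y Z := (∃ d, X.1 = Symbol.terminal d :: Z.1 ∧ Y.1 = [Symbol.terminal d]) ∨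
    (∃ r ∈ g.rules, X.1 = Symbol.nonterminal r.input :: Z.1 ∧ Y.1 = r.output)

theorem ld_single {g : ContextFreeGrammar.{0} ℕ} {d : ℕ} {α : List (Symbol ℕ g.NT)} {w : List ℕ}
    (hα : α = [Symbol.terminal d]) (h : LD g α w) : w = [d] := by
  cases h with
  | nil => cases hα
  | term d' α w h =>
    have h1 := (List.cons.inj hα).1
    have h2 := (List.cons.inj hα).2
    subst h2
    cases h
    have h3 : d' = d := by injection h1
    rw [h3]
  | nt r α u v hr h1 h2 =>
    have h3 := (List.cons.inj hα).1
    cases h3

theorem der_word {g : ContextFreeGrammar.{0} ℕ} {b L : ℕ} {X : {α // α ∈ states g}} {p l v : ℕ}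
    (h : Der b (gram g L) X p l v) : ∃ w : List ℕ, LD g X.1 w ∧ w.length = l ∧
      v = Nat.ofDigits b w ∧ (∀ d ∈ w, d < b) ∧
      (∀ (i : ℕ) (hi : i < w.length), p + i + 1 = L → w[i] ≠ 0) := by
  induction h with
  | eps X p h =>
    refine ⟨[], ?_, rfl, rfl, by simp, fun i hi => absurd hi (by simp)⟩
    have h' : X.1 = [] := h
    rw [h']
    exact LD.nil
  | leaf X p d hd h =>
    obtain ⟨h1, h2⟩ := h
    refine ⟨[d], ?_, rfl, by simp, by simpa using hd, ?_⟩
    · rw [h1]
      exact LD.term d [] [] LD.nil
    · intro i hi e
      have : i = 0 := by simpa using hi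
      subst this
      exact h2 (by omega)
  | node X Y Z p l₁ l₂ u v h _ _ ih1 ih2 =>
    obtain ⟨w₁, a1, a2, a3, a4, a5⟩ := ih1
    obtain ⟨w₂, b1, b2, b3, b4, b5⟩ := ih2
    refine ⟨w₁ ++ w₂, ?_, by rw [List.length_append, a2, b2], ?_, ?_, ?_⟩
    · rcases h with ⟨d, h1, h2⟩ | ⟨r, hr, h1, h2⟩
      · have h3 := ld_single h2 a1
        rw [h3, h1]
        exact LD.term d _ _ b1
      · rw [h1]
        rw [h2] at a1
        exact LD.nt r _ _ _ hr a1 b1
    · rw [Nat.ofDigits_append, a2, a3, b3]
    · intro d hd
      rcases List.mem_append.1 hd with hd | hd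
      · exact a4 d hd
      · exact b4 d hd
    · intro i hi e
      rcases Nat.lt_or_ge i w₁.length with hi1 | hi1
      · rw [List.getElem_append_left hi1]
        exact a5 i hi1 e
      · rw [List.getElem_append_right hi1]
        refine b5 (i - w₁.length) (by rw [List.length_append] at hi; omega) (by omega)

theorem word_der {g : ContextFreeGrammar.{0} ℕ} {b L : ℕ} {α : List (Symbol ℕ g.NT)} {w : List ℕ}
    (h : LD g α w) : ∀ (hα : α ∈ states g) (p : ℕ), (∀ d ∈ w, d < b) →
      (∀ (i : ℕ) (hi : i < w.length), p + i + 1 = L → w[i] ≠ 0) →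
      Der b (gram g L) ⟨α, hα⟩ p w.length (Nat.ofDigits b w) := by
  induction h with
  | nil =>
    intro hα p _ _
    exact Der.eps _ p rfl
  | term d α w h ih =>
    intro hα p h1 h2
    have hα' := tail_mem g hα
    have hd' := head_mem g hα
    have e1 := Der.leaf (b := b) (G := gram g L) ⟨[Symbol.terminal d], hd'⟩ p d
      (h1 d List.mem_cons_self) ⟨rfl, fun e => by
        have := h2 0 (by simp) (by omega)
        simpa using this⟩
    have e2 := ih hα' (p + 1) (fun x hx => h1 x (List.mem_cons_of_mem _ hx)) (fun i hi e => by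
      have := h2 (i + 1) (by simpa using hi) (by omega)
      simpa using this)
    have e3 := Der.node (b := b) (G := gram g L) ⟨Symbol.terminal d :: α, hα⟩
      ⟨[Symbol.terminal d], hd'⟩ ⟨α, hα'⟩ p 1 w.length d (Nat.ofDigits b w)
      (Or.inl ⟨d, rfl, rfl⟩) e1 e2
    have e4 : (d :: w).length = 1 + w.length := by rw [List.length_cons]; omega
    have e5 : Nat.ofDigits b (d :: w) = d + b ^ 1 * Nat.ofDigits b w := by
      rw [Nat.ofDigits_cons, pow_one]
    rw [e4, e5]
    exact e3
  | nt r α u v hr hu hv ih1 ih2 =>
    intro hα p h1 h2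
    have hα' := tail_mem g hα
    have hr' := output_mem g hr
    have e1 := ih1 hr' p (fun x hx => h1 x (List.mem_append_left _ hx)) (fun i hi e => by
      have := h2 i (by rw [List.length_append]; omega) e
      rwa [List.getElem_append_left hi] at this)
    have e2 := ih2 hα' (p + u.length) (fun x hx => h1 x (List.mem_append_right _ hx))
      (fun i hi e => by
        have := h2 (u.length + i) (by rw [List.length_append]; omega) (by omega)
        rw [List.getElem_append_right (by omega)] at this
        have e0 : u.length + i - u.length = i := by omega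
        simpa only [e0] using this)
    have e3 := Der.node (b := b) (G := gram g L) ⟨Symbol.nonterminal r.input :: α, hα⟩
      ⟨r.output, hr'⟩ ⟨α, hα'⟩ p u.length v.length (Nat.ofDigits b u) (Nat.ofDigits b v)
      (Or.inr ⟨r, hr, rfl, rfl⟩) e1 e2
    rw [List.length_append, Nat.ofDigits_append]
    exact e3

theorem g2 : G2 := by
  classical
  intro g b L hb
  refine ⟨{α // α ∈ states g}, inferInstance, gram g L,
    ⟨[Symbol.nonterminal g.initial], init_mem g⟩, ?_, ?_⟩
  · rw [Fintype.card_coe]
    exact card_states g
  · intro v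
    constructor
    · intro h
      obtain ⟨w, h1, h2, h3, h4, h5⟩ := der_word h
      have h6 : Nat.digits b v = w := by
        rw [h3]
        refine Nat.digits_ofDigits b (by omega) w h4 ?_
        intro hw
        rw [List.getLast_eq_getElem]
        exact h5 _ _ (by
          have : 0 < w.length := List.length_pos_iff.2 hw
          omega)
      rw [h6]
      exact ⟨h2, h1⟩
    · rintro ⟨h1, h2⟩
      have h3 := word_der (b := b) (L := L) h2 (init_mem g) 0
        (fun d hd => Nat.digits_lt_base (by omega) hd) (fun i hi e => by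
          have hne : Nat.digits b v ≠ [] := by
            intro h
            rw [h] at hi
            simp at hi
          have hv0 : v ≠ 0 := Nat.digits_ne_nil_iff_ne_zero.1 hne
          have h4 := Nat.getLast_digit_ne_zero b hv0
          rw [List.getLast_eq_getElem] at h4
          have e0 : i = (Nat.digits b v).length - 1 := by omega
          subst e0
          exact h4)
      rw [h1, Nat.ofDigits_digits] at h3
      exact h3

end Vale.Agent.P042.CF
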