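import Vale.Agent.P042.R2.H463CF.Words

set_option autoImplicit false

/-! Occurrences of pieces in accepted words; short pieces. -/

namespace Vale.Agent.P042.CF

open Polynomial Finset

variable {b : ℕ} {σ : Type} {G : Gr σ}

def DerE (b : ℕ) (G : Gr σ) (X : σ) (p l : ℕ) : Prop := ∃ v, Der b G X p l v

def CtxE (b : ℕ) (G : Gr σ) (l : ℕ) (Y X : σ) (p i j : ℕ) : Prop :=
  ∃ u w, Ctx b G l Y X p i j u w

theorem DerE.cast {X : σ} {p l p' l' : ℕ} (h : DerE b G X p l) (hp : p = p') (hl : l = l') :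
    DerE b G X p' l' := by
  subst hp; subst hl; exact h

theorem CtxE.cast {l : ℕ} {Y X : σ} {p i j l' p' i' j' : ℕ} (h : CtxE b G l Y X p i j)
    (hl : l = l') (hp : p = p') (hi : i = i') (hj : j = j') : CtxE b G l' Y X p' i' j' := by
  subst hp; subst hl; subst hi; subst hj; exact h

theorem plugE {l : ℕ} {Y X : σ} {p i j : ℕ} (h : CtxE b G l Y X p i j)
    (hv : DerE b G Y (p + i) l) : DerE b G X p (i + l + j) := by
  obtain ⟨u, w, h⟩ := h
  obtain ⟨v, hv⟩ := hv
  exact ⟨_, plug b σ G l Y X p i j u w v h hv⟩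

theorem compE {l : ℕ} {Y Z X : σ} {p i₁ j₁ i₂ j₂ : ℕ} (h : CtxE b G (i₂ + l + j₂) Z X p i₁ j₁)
    (h' : CtxE b G l Y Z (p + i₁) i₂ j₂) : CtxE b G l Y X p (i₁ + i₂) (j₂ + j₁) := by
  obtain ⟨u, w, h⟩ := h
  obtain ⟨u', w', h'⟩ := h'
  exact ⟨_, _, comp b σ G l Y Z X p i₁ j₁ u w i₂ j₂ u' w' h h'⟩

theorem nodeE {X Y Z : σ} {p l₁ l₂ : ℕ} (h : G.r2 X Y Z) (h1 : DerE b G Y p l₁)
    (h2 : DerE b G Z (p + l₁) l₂) : DerE b G X p (l₁ + l₂) := by
  obtain ⟨u, h1⟩ := h1
  obtain ⟨v, h2⟩ := h2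
  exact ⟨_, Der.node X Y Z p l₁ l₂ u v h h1 h2⟩

theorem leftE {X Y Z : σ} {p l₁ l₂ : ℕ} (h : G.r2 X Y Z) (h2 : DerE b G Z (p + l₁) l₂) :
    CtxE b G l₁ Y X p 0 l₂ := by
  obtain ⟨v, h2⟩ := h2
  exact ⟨_, _, (Ctx.left X Y Z p 0 0 l₂ 0 0 v h (Ctx.base p)
    (h2.cast (by ring) rfl rfl)).cast rfl rfl rfl (by ring) rfl rfl⟩

theorem rightE {X Y Z : σ} {p l₁ l₂ : ℕ} (h : G.r2 X Y Z) (h1 : DerE b G Y p l₁) :
    CtxE b G l₂ Z X p l₁ 0 := by
  obtain ⟨v, h1⟩ := h1
  exact ⟨_, _, (Ctx.right X Y Z p l₁ 0 0 v 0 0 h h1 (Ctx.base (p + l₁))).cast rfl rfl (by ring)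
    rfl rfl rfl⟩

/-- The tree piece occurs in an accepted word. -/
def OccT (b : ℕ) (G : Gr σ) (S : σ) (L : ℕ) (X : σ) (p l : ℕ) : Prop :=
  ∃ j, CtxE b G l X S 0 p j ∧ p + l + j = L

/-- The context piece occurs in an accepted word. -/
def OccC (b : ℕ) (G : Gr σ) (S : σ) (L l : ℕ) (Y X : σ) (p i j : ℕ) : Prop :=
  OccT b G S L X p (i + l + j) ∧ DerE b G Y (p + i) l

theorem OccT.cast {S : σ} {L : ℕ} {X : σ} {p l p' l' : ℕ} (h : OccT b G S L X p l) (hp : p = p')
    (hl : l = l') : OccT b G S L X p' l' := by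
  subst hp; subst hl; exact h

theorem OccT.sub {S : σ} {L : ℕ} {X Y : σ} {p l i j : ℕ} (h : OccT b G S L X p (i + l + j))
    (h' : CtxE b G l Y X p i j) : OccT b G S L Y (p + i) l := by
  obtain ⟨j', hC, e⟩ := h
  exact ⟨j + j', compE hC (h'.cast rfl (by ring) rfl rfl), by omega⟩

theorem memTT {X : σ} {p l v : ℕ} (hb : 1 ≤ b) : v ∈ TT b G X p l ↔ Der b G X p l v := by
  classical
  unfold TT
  rw [mem_filter, mem_range]
  exact ⟨fun h => h.2, fun h => ⟨derLt b σ G X p l v hb h, h⟩⟩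

theorem memCC {l : ℕ} {Y X : σ} {p i j : ℕ} {x : ℕ × ℕ} (hb : 1 ≤ b) :
    x ∈ CC b G l Y X p i j ↔ Ctx b G l Y X p i j x.1 x.2 := by
  classical
  unfold CC
  rw [mem_filter, mem_product, mem_range, mem_range]
  exact ⟨fun h => h.2, fun h => ⟨ctxLt b σ G l Y X p i j _ _ hb h, h⟩⟩

/-- The value of an accepted word which contains a given word of the piece. -/
theorem OccT.mem {S : σ} {L : ℕ} {X : σ} {p l : ℕ} (h : OccT b G S L X p l) {A : Finset ℤ}
    (hacc : ∀ v, Der b G S 0 L v → (v : ℤ) ∈ A) :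
    ∃ c c' : ℕ, ∀ v, Der b G X p l v → ((c + b ^ p * v + c' : ℕ) : ℤ) ∈ A := by
  obtain ⟨j, ⟨u, w, hC⟩, e⟩ := h
  refine ⟨u, b ^ (p + l) * w, fun v hv => hacc _ ?_⟩
  exact (plug b σ G l X S 0 p j u w v hC (hv.cast (by ring) rfl rfl)).cast rfl e rfl

section bounds

variable {a k Q M L : ℕ} {g : ℝ} {A : Finset ℤ}

/-- The fibre bound as a real number. -/
theorem fiberR (hf : Fiber) (hk : 1 ≤ k) (hb : 2 ≤ b)
    (hA : DiffFree (C (a : ℤ) * X ^ k : ℤ[X]) A)
    (hr : ∀ n : ℕ, M ≤ 2 * (n + k) → Real.log (rMax (C (a : ℤ) * X ^ k : ℤ[X]) (b ^ n)) ≤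
      n * Real.log b - need Q M g) (q l : ℕ) (hl : M ≤ 2 * l) (c : ℤ) (D : Finset ℕ)
    (hD : ∀ d ∈ D, d < b ^ l) (hDA : ∀ d ∈ D, c + ((b ^ q * d : ℕ) : ℤ) ∈ A) :
    (D.card : ℝ) ≤ Real.exp (l * Real.log b - need Q M g) := by
  obtain ⟨o, ho, hcard⟩ := hf a k b hk (by omega) A hA q l c D hD hDA
  have hb0 : (0 : ℝ) < b := by
    have : 0 < b := by omega
    exact_mod_cast this
  have h1 : M ≤ 2 * ((l - o) + k) := by omega
  have h2 := hr (l - o) h1
  have h3 : 1 ≤ b ^ (l - o) := Nat.one_le_pow _ _ (by omega)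
  have h4 : (0 : ℝ) < rMax (C (a : ℤ) * X ^ k : ℤ[X]) (b ^ (l - o)) := by
    have := Vale.Agent.P042.H463.one_le_rMax (C (a : ℤ) * X ^ k : ℤ[X]) h3
    exact_mod_cast this
  have h5 : ((rMax (C (a : ℤ) * X ^ k : ℤ[X]) (b ^ (l - o)) : ℕ) : ℝ) ≤
      Real.exp (((l - o : ℕ) : ℝ) * Real.log b - need Q M g) := by
    rw [← Real.log_le_iff_le_exp h4]
    exact h2
  have h6 : (b : ℝ) ^ (min o l) = Real.exp ((min o l : ℕ) * Real.log b) := by
    rw [mul_comm, Real.exp_mul, Real.exp_log hb0, Real.rpow_natCast]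
  have h7 : ((min o l : ℕ) : ℝ) + ((l - o : ℕ) : ℝ) = l := by
    have : min o l + (l - o) = l := by omega
    exact_mod_cast this
  calc (D.card : ℝ) ≤ ((b ^ (min o l) * rMax (C (a : ℤ) * X ^ k : ℤ[X]) (b ^ (l - o)) : ℕ) : ℝ) := by
        exact_mod_cast hcard
    _ = (b : ℝ) ^ (min o l) * (rMax (C (a : ℤ) * X ^ k : ℤ[X]) (b ^ (l - o)) : ℝ) := by
        push_cast; rfl
    _ ≤ Real.exp ((min o l : ℕ) * Real.log b) *
        Real.exp (((l - o : ℕ) : ℝ) * Real.log b - need Q M g) := by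
        rw [h6]
        exact mul_le_mul_of_nonneg_left h5 (Real.exp_pos _).le
    _ = Real.exp (l * Real.log b - need Q M g) := by
        rw [← Real.exp_add]
        congr 1
        rw [← h7]
        ring

theorem shortT (hf : Fiber) (hk : 1 ≤ k) (hb : 2 ≤ b)
    (hA : DiffFree (C (a : ℤ) * X ^ k : ℤ[X]) A)
    (hr : ∀ n : ℕ, M ≤ 2 * (n + k) → Real.log (rMax (C (a : ℤ) * X ^ k : ℤ[X]) (b ^ n)) ≤
      n * Real.log b - need Q M g) {S : σ} (hacc : ∀ v, Der b G S 0 L v → (v : ℤ) ∈ A)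
    {X : σ} {p l : ℕ} (hl : M ≤ 2 * l) (ho : OccT b G S L X p l) :
    ((TT b G X p l).card : ℝ) ≤ Real.exp (l * Real.log b - need Q M g) := by
  obtain ⟨c, c', hc⟩ := ho.mem hacc
  refine fiberR hf hk hb hA hr p l hl ((c + c' : ℕ) : ℤ) _ ?_ ?_
  · intro d hd
    exact derLt b σ G X p l d (by omega) ((memTT (by omega)).1 hd)
  · intro d hd
    have := hc d ((memTT (by omega)).1 hd)
    have e : ((c + c' : ℕ) : ℤ) + ((b ^ p * d : ℕ) : ℤ) = ((c + b ^ p * d + c' : ℕ) : ℤ) := by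
      push_cast; ring
    rw [e]
    exact this

theorem trivT (hb : 2 ≤ b) (X : σ) (p l : ℕ) :
    ((TT b G X p l).card : ℝ) ≤ Real.exp (l * Real.log b) := by
  classical
  have hb0 : (0 : ℝ) < b := by
    have : 0 < b := by omega
    exact_mod_cast this
  have h6 : Real.exp (l * Real.log b) = (b : ℝ) ^ l := by
    rw [mul_comm, Real.exp_mul, Real.exp_log hb0, Real.rpow_natCast]
  have h1 : (TT b G X p l).card ≤ b ^ l := by
    refine (Finset.card_le_card (Finset.filter_subset _ _)).trans ?_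
    rw [card_range]
  rw [h6]
  exact_mod_cast h1

theorem trivC (hb : 2 ≤ b) (l : ℕ) (Y X : σ) (p i j : ℕ) :
    ((CC b G l Y X p i j).card : ℝ) ≤ Real.exp (((i + j : ℕ) : ℝ) * Real.log b) := by
  classical
  have hb0 : (0 : ℝ) < b := by
    have : 0 < b := by omega
    exact_mod_cast this
  have h6 : Real.exp (((i + j : ℕ) : ℝ) * Real.log b) = (b : ℝ) ^ (i + j) := by
    rw [mul_comm, Real.exp_mul, Real.exp_log hb0, Real.rpow_natCast]
  have h1 : (CC b G l Y X p i j).card ≤ b ^ (i + j) := by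
    refine (Finset.card_le_card (Finset.filter_subset _ _)).trans ?_
    rw [card_product, card_range, card_range, pow_add]
  rw [h6]
  exact_mod_cast h1

theorem shortC (hf : Fiber) (hk : 1 ≤ k) (hb : 2 ≤ b)
    (hA : DiffFree (C (a : ℤ) * X ^ k : ℤ[X]) A)
    (hr : ∀ n : ℕ, M ≤ 2 * (n + k) → Real.log (rMax (C (a : ℤ) * X ^ k : ℤ[X]) (b ^ n)) ≤
      n * Real.log b - need Q M g) {S : σ} (hacc : ∀ v, Der b G S 0 L v → (v : ℤ) ∈ A)
    {l : ℕ} {Y X : σ} {p i j : ℕ} (hl : M ≤ i + j) (ho : OccC b G S L l Y X p i j) :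
    ((CC b G l Y X p i j).card : ℝ) ≤
      Real.exp (((i + j : ℕ) : ℝ) * Real.log b - need Q M g) := by
  classical
  have hb0 : (0 : ℝ) < b := by
    have : 0 < b := by omega
    exact_mod_cast this
  obtain ⟨hT, v₀, hv₀⟩ := ho
  obtain ⟨c, c', hc⟩ := hT.mem hacc
  have key : ∀ u w, Ctx b G l Y X p i j u w →
      ((c + b ^ p * (u + b ^ i * v₀ + b ^ (i + l) * w) + c' : ℕ) : ℤ) ∈ A :=
    fun u w h => hc _ (plug b σ G l Y X p i j u w v₀ h hv₀)
  have hpow : ∀ n : ℕ, ((b ^ n : ℕ) : ℝ) = Real.exp (n * Real.log b) := by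
    intro n
    rw [mul_comm, Real.exp_mul, Real.exp_log hb0, Real.rpow_natCast]
    push_cast; rfl
  rcases le_total j i with hij | hij
  · have h1 : (CC b G l Y X p i j).card = ∑ w ∈ range (b ^ j),
        ((CC b G l Y X p i j).filter fun x => x.2 = w).card :=
      Finset.card_eq_sum_card_fiberwise (fun x hx => by
        have := (memCC (by omega)).1 hx
        exact Finset.mem_coe.2 (mem_range.2 (ctxLt b σ G l Y X p i j _ _ (by omega) this).2))
    have h2 : ∀ w ∈ range (b ^ j), ((((CC b G l Y X p i j).filter fun x => x.2 = w).card : ℕ) : ℝ) ≤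
        Real.exp (i * Real.log b - need Q M g) := by
      intro w _
      have e : ((CC b G l Y X p i j).filter fun x => x.2 = w).card =
          (((CC b G l Y X p i j).filter fun x => x.2 = w).image Prod.fst).card := by
        refine (Finset.card_image_of_injOn ?_).symm
        intro x hx y hy hxy
        have hx' := (mem_filter.1 (Finset.mem_coe.1 hx)).2
        have hy' := (mem_filter.1 (Finset.mem_coe.1 hy)).2
        exact Prod.ext hxy (hx'.trans hy'.symm)
      rw [e]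
      refine fiberR hf hk hb hA hr p i (by omega)
        ((c + b ^ p * (b ^ i * v₀ + b ^ (i + l) * w) + c' : ℕ) : ℤ) _ ?_ ?_
      · intro d hd
        obtain ⟨x, hx, rfl⟩ := mem_image.1 hd
        exact (ctxLt b σ G l Y X p i j _ _ (by omega)
          ((memCC (by omega)).1 (mem_filter.1 hx).1)).1
      · intro d hd
        obtain ⟨x, hx, rfl⟩ := mem_image.1 hd
        have h3 := key _ _ ((memCC (by omega)).1 (mem_filter.1 hx).1)
        rw [(mem_filter.1 hx).2] at h3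
        convert h3 using 1
        push_cast
        ring
    rw [h1, Nat.cast_sum]
    refine (Finset.sum_le_sum h2).trans (le_of_eq ?_)
    rw [sum_const, card_range, nsmul_eq_mul, hpow, ← Real.exp_add]
    congr 1
    push_cast
    ring
  · have h1 : (CC b G l Y X p i j).card = ∑ u ∈ range (b ^ i),
        ((CC b G l Y X p i j).filter fun x => x.1 = u).card :=
      Finset.card_eq_sum_card_fiberwise (fun x hx => by
        have := (memCC (by omega)).1 hx
        exact Finset.mem_coe.2 (mem_range.2 (ctxLt b σ G l Y X p i j _ _ (by omega) this).1))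
    have h2 : ∀ u ∈ range (b ^ i), ((((CC b G l Y X p i j).filter fun x => x.1 = u).card : ℕ) : ℝ) ≤
        Real.exp (j * Real.log b - need Q M g) := by
      intro u _
      have e : ((CC b G l Y X p i j).filter fun x => x.1 = u).card =
          (((CC b G l Y X p i j).filter fun x => x.1 = u).image Prod.snd).card := by
        refine (Finset.card_image_of_injOn ?_).symm
        intro x hx y hy hxy
        have hx' := (mem_filter.1 (Finset.mem_coe.1 hx)).2
        have hy' := (mem_filter.1 (Finset.mem_coe.1 hy)).2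
        exact Prod.ext (hx'.trans hy'.symm) hxy
      rw [e]
      refine fiberR hf hk hb hA hr (p + (i + l)) j (by omega)
        ((c + b ^ p * (u + b ^ i * v₀) + c' : ℕ) : ℤ) _ ?_ ?_
      · intro d hd
        obtain ⟨x, hx, rfl⟩ := mem_image.1 hd
        exact (ctxLt b σ G l Y X p i j _ _ (by omega)
          ((memCC (by omega)).1 (mem_filter.1 hx).1)).2
      · intro d hd
        obtain ⟨x, hx, rfl⟩ := mem_image.1 hd
        have h3 := key _ _ ((memCC (by omega)).1 (mem_filter.1 hx).1)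
        rw [(mem_filter.1 hx).2] at h3
        convert h3 using 1
        push_cast
        ring
    rw [h1, Nat.cast_sum]
    refine (Finset.sum_le_sum h2).trans (le_of_eq ?_)
    rw [sum_const, card_range, nsmul_eq_mul, hpow, ← Real.exp_add]
    congr 1
    push_cast
    ring

end bounds

end Vale.Agent.P042.CF
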