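import Vale.Agent.P042.R2.H463.Base

set_option autoImplicit false

/-!
P042.ContextFree: definitions and the rows (literal statements, as Props).
-/

namespace Vale.Agent.P042.CF

open Polynomial Finset

/-- A grammar with the set `σ` of nonterminals: rules `X → ε`, `X → d` (allowed at position `p`)
and `X → Y Z`. -/
structure Gr (σ : Type) where
  r0 : σ → Prop
  r1 : σ → ℕ → ℕ → Prop
  r2 : σ → σ → σ → Prop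

/-- `Der b G X p l v`: a word of `l` digits, placed at the positions `p, ..., p + l - 1`, with the
value `v` in base `b`, is derived from `X`. -/
inductive Der (b : ℕ) {σ : Type} (G : Gr σ) : σ → ℕ → ℕ → ℕ → Prop
  | eps (X : σ) (p : ℕ) : G.r0 X → Der b G X p 0 0
  | leaf (X : σ) (p d : ℕ) : d < b → G.r1 X p d → Der b G X p 1 d
  | node (X Y Z : σ) (p l₁ l₂ u v : ℕ) : G.r2 X Y Z → Der b G Y p l₁ u →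
      Der b G Z (p + l₁) l₂ v → Der b G X p (l₁ + l₂) (u + b ^ l₁ * v)

/-- `Ctx b G l Y X p i j u w`: `X` derives (word of value `u`, length `i`, at the position `p`),
`Y` (a hole of length `l` at `p + i`), (word of value `w`, length `j`, at `p + (i + l)`). -/
inductive Ctx (b : ℕ) {σ : Type} (G : Gr σ) (l : ℕ) (Y : σ) : σ → ℕ → ℕ → ℕ → ℕ → ℕ → Prop
  | base (p : ℕ) : Ctx b G l Y Y p 0 0 0 0
  | left (X Z₁ Z₂ : σ) (p i j j₂ u w w₂ : ℕ) : G.r2 X Z₁ Z₂ → Ctx b G l Y Z₁ p i j u w →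
      Der b G Z₂ (p + (i + l + j)) j₂ w₂ → Ctx b G l Y X p i (j + j₂) u (w + b ^ j * w₂)
  | right (X Z₁ Z₂ : σ) (p i₁ i j u₁ u w : ℕ) : G.r2 X Z₁ Z₂ → Der b G Z₁ p i₁ u₁ →
      Ctx b G l Y Z₂ (p + i₁) i j u w → Ctx b G l Y X p (i₁ + i) j (u₁ + b ^ i₁ * u) w

open Classical in
/-- The values derived from `X`. -/
noncomputable def TT (b : ℕ) {σ : Type} (G : Gr σ) (X : σ) (p l : ℕ) : Finset ℕ :=
  (range (b ^ l)).filter fun v => Der b G X p l v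

open Classical in
/-- The pairs of values around a hole `Y`. -/
noncomputable def CC (b : ℕ) {σ : Type} (G : Gr σ) (l : ℕ) (Y X : σ) (p i j : ℕ) :
    Finset (ℕ × ℕ) :=
  ((range (b ^ i)) ×ˢ (range (b ^ j))).filter fun x => Ctx b G l Y X p i j x.1 x.2

/-! ### Row W (helper463): words -/

def DerLt : Prop := ∀ (b : ℕ) (σ : Type) (G : Gr σ) (X : σ) (p l v : ℕ), 1 ≤ b →
  Der b G X p l v → v < b ^ l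

def CtxLt : Prop := ∀ (b : ℕ) (σ : Type) (G : Gr σ) (l : ℕ) (Y X : σ) (p i j u w : ℕ), 1 ≤ b →
  Ctx b G l Y X p i j u w → u < b ^ i ∧ w < b ^ j

def Plug : Prop := ∀ (b : ℕ) (σ : Type) (G : Gr σ) (l : ℕ) (Y X : σ) (p i j u w v : ℕ),
  Ctx b G l Y X p i j u w → Der b G Y (p + i) l v →
  Der b G X p (i + l + j) (u + b ^ i * v + b ^ (i + l) * w)

def Comp : Prop := ∀ (b : ℕ) (σ : Type) (G : Gr σ) (l : ℕ) (Y Z X : σ)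
  (p i₁ j₁ u₁ w₁ i₂ j₂ u₂ w₂ : ℕ),
  Ctx b G (i₂ + l + j₂) Z X p i₁ j₁ u₁ w₁ → Ctx b G l Y Z (p + i₁) i₂ j₂ u₂ w₂ →
  Ctx b G l Y X p (i₁ + i₂) (j₂ + j₁) (u₁ + b ^ i₁ * u₂) (w₂ + b ^ j₂ * w₁)

/-- Splitting of a derivation. -/
def SplitT : Prop := ∀ (b : ℕ) (σ : Type) (G : Gr σ) (X : σ) (p l v t : ℕ), Der b G X p l v →
  1 ≤ t → t ≤ l → ∃ (Y : σ) (i l' j u v' w : ℕ), i + l' + j = l ∧ t ≤ 2 * l' ∧ l' ≤ t ∧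
    Ctx b G l' Y X p i j u w ∧ Der b G Y (p + i) l' v' ∧
    v = u + b ^ i * v' + b ^ (i + l') * w

/-- Splitting of a derivation with a hole: an outer context with a hole `Z`, a rule `Z → Z₁ Z₂`,
an inner context in one of the two and a derivation from the other. -/
def SplitC : Prop := ∀ (b : ℕ) (σ : Type) (G : Gr σ) (l : ℕ) (Y X : σ) (p i j u w t : ℕ),
  Ctx b G l Y X p i j u w → 1 ≤ t → t ≤ i + j →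
  (∃ (Z Z₁ Z₂ : σ) (i₁ j₁ i₂ j₂ j₃ u₁ w₁ u₂ w₂ w₃ : ℕ), i₁ + i₂ = i ∧ j₂ + j₃ + j₁ = j ∧
    i₂ + j₂ < t ∧ t ≤ i₂ + (j₂ + j₃) ∧ G.r2 Z Z₁ Z₂ ∧
    Ctx b G (i₂ + l + (j₂ + j₃)) Z X p i₁ j₁ u₁ w₁ ∧ Ctx b G l Y Z₁ (p + i₁) i₂ j₂ u₂ w₂ ∧
    Der b G Z₂ (p + i₁ + (i₂ + l + j₂)) j₃ w₃ ∧
    u = u₁ + b ^ i₁ * u₂ ∧ w = w₂ + b ^ j₂ * w₃ + b ^ (j₂ + j₃) * w₁) ∨
  (∃ (Z Z₁ Z₂ : σ) (i₁ j₁ i₂ j₂ i₃ u₁ w₁ u₂ w₂ u₃ : ℕ), i₁ + i₃ + i₂ = i ∧ j₂ + j₁ = j ∧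
    i₂ + j₂ < t ∧ t ≤ i₃ + i₂ + j₂ ∧ G.r2 Z Z₁ Z₂ ∧
    Ctx b G (i₃ + i₂ + l + j₂) Z X p i₁ j₁ u₁ w₁ ∧ Der b G Z₁ (p + i₁) i₃ u₃ ∧
    Ctx b G l Y Z₂ (p + i₁ + i₃) i₂ j₂ u₂ w₂ ∧
    u = u₁ + b ^ i₁ * u₃ + b ^ (i₁ + i₃) * u₂ ∧ w = w₂ + b ^ j₂ * w₁)

/-! ### Row U: union bounds (uses SplitT, SplitC, DerLt, CtxLt) -/

def CardT : Prop := ∀ (b : ℕ) (σ : Type) [Fintype σ] (G : Gr σ) (X : σ) (p l t : ℕ) (B : ℝ),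
  1 ≤ b → 1 ≤ t → t ≤ l → 0 ≤ B →
  (∀ (Y : σ) (i l' j : ℕ), i + l' + j = l → t ≤ 2 * l' → l' ≤ t →
    (CC b G l' Y X p i j).Nonempty → (TT b G Y (p + i) l').Nonempty →
    ((CC b G l' Y X p i j).card : ℝ) * ((TT b G Y (p + i) l').card : ℝ) ≤ B) →
  ((TT b G X p l).card : ℝ) ≤ (Fintype.card σ : ℝ) * ((l : ℝ) + 1) ^ 2 * B

def CardC : Prop := ∀ (b : ℕ) (σ : Type) [Fintype σ] (G : Gr σ) (l : ℕ) (Y X : σ)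
  (p i j t : ℕ) (B : ℝ), 1 ≤ b → 1 ≤ t → t ≤ i + j → 0 ≤ B →
  (∀ (Z Z₁ Z₂ : σ) (i₁ j₁ i₂ j₂ j₃ : ℕ), i₁ + i₂ = i → j₂ + j₃ + j₁ = j →
    i₂ + j₂ < t → t ≤ i₂ + (j₂ + j₃) → G.r2 Z Z₁ Z₂ →
    (CC b G (i₂ + l + (j₂ + j₃)) Z X p i₁ j₁).Nonempty →
    (CC b G l Y Z₁ (p + i₁) i₂ j₂).Nonempty →
    (TT b G Z₂ (p + i₁ + (i₂ + l + j₂)) j₃).Nonempty →
    ((CC b G (i₂ + l + (j₂ + j₃)) Z X p i₁ j₁).card : ℝ) *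
      ((CC b G l Y Z₁ (p + i₁) i₂ j₂).card : ℝ) *
      ((TT b G Z₂ (p + i₁ + (i₂ + l + j₂)) j₃).card : ℝ) ≤ B) →
  (∀ (Z Z₁ Z₂ : σ) (i₁ j₁ i₂ j₂ i₃ : ℕ), i₁ + i₃ + i₂ = i → j₂ + j₁ = j →
    i₂ + j₂ < t → t ≤ i₃ + i₂ + j₂ → G.r2 Z Z₁ Z₂ →
    (CC b G (i₃ + i₂ + l + j₂) Z X p i₁ j₁).Nonempty →
    (TT b G Z₁ (p + i₁) i₃).Nonempty →
    (CC b G l Y Z₂ (p + i₁ + i₃) i₂ j₂).Nonempty →
    ((CC b G (i₃ + i₂ + l + j₂) Z X p i₁ j₁).card : ℝ) *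
      ((TT b G Z₁ (p + i₁) i₃).card : ℝ) *
      ((CC b G l Y Z₂ (p + i₁ + i₃) i₂ j₂).card : ℝ) ≤ B) →
  ((CC b G l Y X p i j).card : ℝ) ≤
    2 * (Fintype.card σ : ℝ) ^ 3 * ((i : ℝ) + j + 1) ^ 3 * B

/-! ### Row B: fibres -/

def Fiber : Prop := ∀ (a k b : ℕ), 1 ≤ k → 1 ≤ b → ∀ A : Finset ℤ,
  DiffFree (C (a : ℤ) * X ^ k : ℤ[X]) A → ∀ (q l : ℕ) (c : ℤ) (D : Finset ℕ),
  (∀ d ∈ D, d < b ^ l) → (∀ d ∈ D, c + ((b ^ q * d : ℕ) : ℤ) ∈ A) →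
  ∃ o, o < k ∧ D.card ≤ b ^ (min o l) * rMax (C (a : ℤ) * X ^ k : ℤ[X]) (b ^ (l - o))

/-! ### Row N: potentials -/

noncomputable def Kc (Q n : ℕ) : ℝ := Real.log (2 * (Q : ℝ) ^ 3 * ((n : ℝ) + 1) ^ 3)

noncomputable def phiC (Q M : ℕ) (g : ℝ) (n : ℕ) : ℝ :=
  if n < M then 0 else
    g / M * n + (Real.log (2 * (Q : ℝ) ^ 3) + 2 * g + 25) + 3 * Real.log n

noncomputable def phiT (Q M : ℕ) (g : ℝ) (n : ℕ) : ℝ :=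
  if n < M then 0 else
    g / M * n + 2 * (Real.log (2 * (Q : ℝ) ^ 3) + 2 * g + 25) + 6 * Real.log n

/-- The saving which is needed for short pieces. -/
noncomputable def need (Q M : ℕ) (g : ℝ) : ℝ :=
  8 * g + 2 * Real.log (2 * (Q : ℝ) ^ 3) + 50 + 6 * Real.log (4 * M)

def N0 : Prop := ∀ (Q M n : ℕ) (g : ℝ), 1 ≤ Q → 1 ≤ M → 0 ≤ g →
  0 ≤ phiC Q M g n ∧ 0 ≤ phiT Q M g n ∧ phiC Q M g n ≤ phiT Q M g n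

def N1 : Prop := ∀ (Q M n s t : ℕ) (g : ℝ), 1 ≤ Q → 1 ≤ M → 0 ≤ g → 4 * M ≤ n → s + t = n →
  n ≤ 4 * s → n ≤ 4 * t → phiT Q M g n + Kc Q n ≤ phiC Q M g s + phiT Q M g t

def N2 : Prop := ∀ (Q M n s₁ s₂ t : ℕ) (g : ℝ), 1 ≤ Q → 1 ≤ M → 0 ≤ g → 4 * M ≤ n →
  s₁ + s₂ + t = n → 2 * s₁ ≤ n → 2 * s₂ ≤ n →
  phiC Q M g n + Kc Q n ≤ phiC Q M g s₁ + phiC Q M g s₂ + phiT Q M g t

def N3 : Prop := ∀ (Q M n : ℕ) (g : ℝ), 1 ≤ Q → 1 ≤ M → 0 ≤ g → n < 4 * M →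
  phiT Q M g n ≤ need Q M g

/-! ### Row I: the bound for one length -/

def Count : Prop := ∀ (a k b Q M L : ℕ) (g : ℝ) (σ : Type) [Fintype σ] (G : Gr σ) (S : σ)
  (A : Finset ℤ), 1 ≤ k → 2 ≤ b → 1 ≤ M → M ≤ L → 0 ≤ g → Fintype.card σ ≤ Q →
  DiffFree (C (a : ℤ) * X ^ k : ℤ[X]) A → (∀ v, Der b G S 0 L v → (v : ℤ) ∈ A) →
  (∀ n : ℕ, M ≤ 2 * (n + k) → Real.log (rMax (C (a : ℤ) * X ^ k : ℤ[X]) (b ^ n)) ≤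
    n * Real.log b - need Q M g) →
  Real.log ((TT b G S 0 L).card) ≤ L * Real.log b - g / M * L

/-! ### Row F: the final numerics for one length -/

def Num : Prop := ∀ (k : ℕ), 1 ≤ k → ∀ r : ℕ → ℕ, (∀ n, 1 ≤ n → 1 ≤ r n) →
  (∀ c : ℝ, c < 1 → ∃ C : ℝ, 0 < C ∧ ∀ N : ℕ, 1 ≤ N →
    (r N : ℝ) ≤ C * N * Real.exp (-(Real.log N) ^ c)) → ∀ ε : ℝ, 0 < ε →
  ∃ δ K : ℝ, 0 < δ ∧ δ ≤ 1 / 2 ∧ 0 < K ∧ ∀ b Q L X : ℕ, 2 ≤ b → 1 ≤ Q → X ≤ r (b ^ L) →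
    (∀ (M : ℕ) (g : ℝ), 1 ≤ M → M ≤ L → 0 ≤ g →
      (∀ n : ℕ, M ≤ 2 * (n + k) → Real.log (r (b ^ n)) ≤ n * Real.log b - need Q M g) →
      Real.log X ≤ L * Real.log b - g / M * L) →
    (X : ℝ) ≤ K * ((b : ℝ) ^ L) ^ (1 - δ / (1 + Real.log (b * Q)) ^ ε)

/-! ### Row S: all lengths -/

def SumL : Prop := ∀ (b : ℕ) (K θ : ℝ) (S : Set ℕ), 2 ≤ b → 0 < K → 1 / 2 ≤ θ → θ ≤ 1 →
  (∀ L : ℕ, ((S ∩ {n | (Nat.digits b n).length = L}).ncard : ℝ) ≤ K * ((b : ℝ) ^ L) ^ θ) →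
  ∀ N : ℕ, 1 ≤ N → ((S ∩ Set.Iio N).ncard : ℝ) ≤ 4 * K * b * (N : ℝ) ^ θ

/-! ### Row G: grammars of Mathlib -/

/-- The size of a grammar: the number of symbols of the rules, and one. -/
def size (g : ContextFreeGrammar.{0} ℕ) : ℕ := 1 + ∑ r ∈ g.rules, (r.output.length + 1)

/-- Leftmost tree derivations. -/
inductive LD (g : ContextFreeGrammar.{0} ℕ) : List (Symbol ℕ g.NT) → List ℕ → Prop
  | nil : LD g [] []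
  | term (d : ℕ) (α : List (Symbol ℕ g.NT)) (w : List ℕ) : LD g α w →
      LD g (Symbol.terminal d :: α) (d :: w)
  | nt (r : ContextFreeRule ℕ g.NT) (α : List (Symbol ℕ g.NT)) (u v : List ℕ) : r ∈ g.rules →
      LD g r.output u → LD g α v → LD g (Symbol.nonterminal r.input :: α) (u ++ v)

def G1 : Prop := ∀ (g : ContextFreeGrammar.{0} ℕ) (α : List (Symbol ℕ g.NT)) (w : List ℕ),
  LD g α w ↔ g.Derives α (w.map Symbol.terminal)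

/-- States: `[]`, `[initial]`, the suffixes of the outputs and the single symbols in the
outputs. -/
def G2 : Prop := ∀ (g : ContextFreeGrammar.{0} ℕ) (b L : ℕ), 2 ≤ b →
  ∃ (σ : Type) (_ : Fintype σ) (G : Gr σ) (S : σ), Fintype.card σ ≤ 3 * size g ∧
    ∀ v : ℕ, Der b G S 0 L v ↔ ((Nat.digits b v).length = L ∧
      LD g [Symbol.nonterminal g.initial] (Nat.digits b v))

end Vale.Agent.P042.CF
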