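import Vale.Agent.P042.R2.H463CF.Spec

set_option autoImplicit false

/-! Words of a binary grammar. -/

namespace Vale.Agent.P042.CF

theorem derLt : DerLt := by
  intro b σ G X p l v hb h
  induction h with
  | eps X p _ => simp
  | leaf X p d hd _ => simpa using hd
  | node X Y Z p l₁ l₂ u v _ _ _ ih1 ih2 =>
    calc u + b ^ l₁ * v < b ^ l₁ + b ^ l₁ * v := by omega
      _ = b ^ l₁ * (v + 1) := by ring
      _ ≤ b ^ l₁ * b ^ l₂ := Nat.mul_le_mul_left _ ih2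
      _ = b ^ (l₁ + l₂) := (pow_add _ _ _).symm

theorem ctxLt : CtxLt := by
  intro b σ G l Y X p i j u w hb h
  induction h with
  | base p => simp
  | left X Z₁ Z₂ p i j j₂ u w w₂ _ _ hD ih =>
    refine ⟨ih.1, ?_⟩
    have h1 := ih.2
    have h2 := derLt b σ G _ _ _ _ hb hD
    calc w + b ^ j * w₂ < b ^ j + b ^ j * w₂ := by omega
      _ = b ^ j * (w₂ + 1) := by ring
      _ ≤ b ^ j * b ^ j₂ := Nat.mul_le_mul_left _ h2
      _ = b ^ (j + j₂) := (pow_add _ _ _).symm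
  | right X Z₁ Z₂ p i₁ i j u₁ u w _ hD _ ih =>
    refine ⟨?_, ih.2⟩
    have h1 := ih.1
    have h2 := derLt b σ G _ _ _ _ hb hD
    calc u₁ + b ^ i₁ * u < b ^ i₁ + b ^ i₁ * u := by omega
      _ = b ^ i₁ * (u + 1) := by ring
      _ ≤ b ^ i₁ * b ^ i := Nat.mul_le_mul_left _ h1
      _ = b ^ (i₁ + i) := (pow_add _ _ _).symm

theorem Der.cast {b : ℕ} {σ : Type} {G : Gr σ} {X : σ} {p l v p' l' v' : ℕ}
    (h : Der b G X p l v) (hp : p = p') (hl : l = l') (hv : v = v') : Der b G X p' l' v' := by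
  subst hp; subst hl; subst hv; exact h

theorem Ctx.cast {b : ℕ} {σ : Type} {G : Gr σ} {l : ℕ} {Y X : σ} {p i j u w l' p' i' j' u' w' : ℕ}
    (h : Ctx b G l Y X p i j u w) (hl : l = l') (hp : p = p') (hi : i = i') (hj : j = j')
    (hu : u = u') (hw : w = w') : Ctx b G l' Y X p' i' j' u' w' := by
  subst hp; subst hl; subst hi; subst hj; subst hu; subst hw; exact h

theorem plug : Plug := by
  intro b σ G l Y X p i j u w v h
  induction h with
  | base p =>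
    intro hv
    exact hv.cast (by ring) (by ring) (by ring)
  | left X Z₁ Z₂ p i j j₂ u w w₂ hr _ hD ih =>
    intro hv
    exact (Der.node X Z₁ Z₂ p (i + l + j) j₂ _ w₂ hr (ih hv) hD).cast rfl (by ring) (by ring)
  | right X Z₁ Z₂ p i₁ i j u₁ u w hr hD _ ih =>
    intro hv
    exact (Der.node X Z₁ Z₂ p i₁ (i + l + j) u₁ _ hr hD
      (ih (hv.cast (by ring) rfl rfl))).cast rfl (by ring) (by ring)

theorem comp : Comp := by
  intro b σ G l Y Z X p i₁ j₁ u₁ w₁ i₂ j₂ u₂ w₂ h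
  induction h with
  | base p =>
    intro hv
    exact hv.cast rfl (by ring) (by ring) (by ring) (by ring) (by ring)
  | left X Z₁ Z₂ p i j j' u w w' hr _ hD ih =>
    intro hv
    exact (Ctx.left X Z₁ Z₂ p (i + i₂) (j₂ + j) j' _ _ w' hr (ih hv)
      (hD.cast (by ring) rfl rfl)).cast rfl rfl rfl (by ring) rfl (by ring)
  | right X Z₁ Z₂ p i' i j u' u w hr hD _ ih =>
    intro hv
    exact (Ctx.right X Z₁ Z₂ p i' (i + i₂) (j₂ + j) u' _ _ hr hD
      (ih (hv.cast rfl (by ring) rfl rfl rfl rfl))).cast rfl rfl (by ring) rfl (by ring) rfl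

theorem splitT : SplitT := by
  intro b σ G X p l v t h
  induction h with
  | eps X p _ => intro h1 h2; omega
  | leaf X p d hd hr =>
    intro h1 h2
    exact ⟨X, 0, 1, 0, 0, d, 0, by omega, by omega, by omega, Ctx.base p,
      Der.leaf X (p + 0) d hd hr, by simp⟩
  | node X Y Z p l₁ l₂ u v hr hY hZ ih1 ih2 =>
    intro h1 h2
    rcases Nat.lt_or_ge l₁ l₂ with h12 | h12
    · rcases Nat.lt_or_ge l₂ t with ht | ht
      · refine ⟨Z, l₁, l₂, 0, u, v, 0, by omega, by omega, by omega, ?_, hZ, by ring⟩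
        exact (Ctx.right X Y Z p l₁ 0 0 u 0 0 hr hY (Ctx.base (p + l₁))).cast rfl rfl (by ring)
          rfl (by ring) rfl
      · obtain ⟨W, i, l', j, u', v', w', e1, e2, e3, hC, hD, rfl⟩ := ih2 h1 ht
        refine ⟨W, l₁ + i, l', j, u + b ^ l₁ * u', v', w', by omega, e2, e3,
          Ctx.right X Y Z p l₁ i j u u' w' hr hY hC, hD.cast (by ring) rfl rfl, by ring⟩
    · rcases Nat.lt_or_ge l₁ t with ht | ht
      · refine ⟨Y, 0, l₁, l₂, 0, u, v, by omega, by omega, by omega, ?_,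
          hY.cast (by ring) rfl rfl, by ring⟩
        exact (Ctx.left X Y Z p 0 0 l₂ 0 0 v hr (Ctx.base p)
          (hZ.cast (by ring) rfl rfl)).cast rfl rfl rfl (by ring) rfl (by ring)
      · obtain ⟨W, i, l', j, u', v', w', e1, e2, e3, hC, hD, rfl⟩ := ih1 h1 ht
        refine ⟨W, i, l', j + l₂, u', v', w' + b ^ j * v, by omega, e2, e3,
          Ctx.left X Y Z p i j l₂ u' w' v hr hC (hZ.cast (by rw [e1]) rfl rfl), hD, ?_⟩
        rw [← e1]
        ring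

theorem splitC : SplitC := by
  intro b σ G l Y X p i j u w t h
  induction h with
  | base p => intro h1 h2; omega
  | left X Z₁ Z₂ p i j j' u w w' hr hC hD ih =>
    intro h1 h2
    rcases Nat.lt_or_ge (i + j) t with ht | ht
    · refine Or.inl ⟨X, Z₁, Z₂, 0, 0, i, j, j', 0, 0, u, w, w', by omega, by omega, ht, by omega,
        hr, Ctx.base p, hC.cast rfl (by ring) rfl rfl rfl rfl, hD.cast (by ring) rfl rfl, by ring,
        by ring⟩
    · rcases ih h1 ht with ⟨Z, A₁, A₂, i₁, j₁, i₂, j₂, j₃, u₁, w₁, u₂, w₂, w₃, e1, e2, e3, e4, hr',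
        hO, hI, hT, rfl, rfl⟩ | ⟨Z, A₁, A₂, i₁, j₁, i₂, j₂, i₃, u₁, w₁, u₂, w₂, u₃, e1, e2, e3, e4,
        hr', hO, hT, hI, rfl, rfl⟩
      · refine Or.inl ⟨Z, A₁, A₂, i₁, j₁ + j', i₂, j₂, j₃, u₁, w₁ + b ^ j₁ * w', u₂, w₂, w₃, e1,
          by omega, e3, e4, hr', Ctx.left X Z₁ Z₂ p i₁ j₁ j' u₁ w₁ w' hr hO
            (hD.cast (by subst e1; subst e2; ring) rfl rfl), hI, hT, rfl, ?_⟩
        subst e2
        ring
      · refine Or.inr ⟨Z, A₁, A₂, i₁, j₁ + j', i₂, j₂, i₃, u₁, w₁ + b ^ j₁ * w', u₂, w₂, u₃, e1,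
          by omega, e3, e4, hr', Ctx.left X Z₁ Z₂ p i₁ j₁ j' u₁ w₁ w' hr hO
            (hD.cast (by subst e1; subst e2; ring) rfl rfl), hT, hI, rfl, ?_⟩
        subst e2
        ring
  | right X Z₁ Z₂ p i' i j u' u w hr hD hC ih =>
    intro h1 h2
    rcases Nat.lt_or_ge (i + j) t with ht | ht
    · refine Or.inr ⟨X, Z₁, Z₂, 0, 0, i, j, i', 0, 0, u, w, u', by omega, by omega, ht, by omega,
        hr, Ctx.base p, hD.cast (by ring) rfl rfl, hC.cast rfl (by ring) rfl rfl rfl rfl, by ring,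
        by ring⟩
    · rcases ih h1 ht with ⟨Z, A₁, A₂, i₁, j₁, i₂, j₂, j₃, u₁, w₁, u₂, w₂, w₃, e1, e2, e3, e4, hr',
        hO, hI, hT, rfl, rfl⟩ | ⟨Z, A₁, A₂, i₁, j₁, i₂, j₂, i₃, u₁, w₁, u₂, w₂, u₃, e1, e2, e3, e4,
        hr', hO, hT, hI, rfl, rfl⟩
      · refine Or.inl ⟨Z, A₁, A₂, i' + i₁, j₁, i₂, j₂, j₃, u' + b ^ i' * u₁, w₁, u₂, w₂, w₃,
          by omega, e2, e3, e4, hr', Ctx.right X Z₁ Z₂ p i' i₁ j₁ u' u₁ w₁ hr hD hO,
          hI.cast rfl (by ring) rfl rfl rfl rfl, hT.cast (by ring) rfl rfl, by ring, rfl⟩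
      · refine Or.inr ⟨Z, A₁, A₂, i' + i₁, j₁, i₂, j₂, i₃, u' + b ^ i' * u₁, w₁, u₂, w₂, u₃,
          by omega, e2, e3, e4, hr', Ctx.right X Z₁ Z₂ p i' i₁ j₁ u' u₁ w₁ hr hD hO,
          hT.cast (by ring) rfl rfl, hI.cast rfl (by ring) rfl rfl rfl rfl, by ring, rfl⟩

end Vale.Agent.P042.CF
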